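import Vale.Agent.P218UE.Props
import Mathlib.Analysis.Calculus.FDeriv.Symmetric
import Mathlib.Analysis.Calculus.BumpFunction.FiniteDimension

/-! Local Gauss-Bonnet estimate: calculus on the surface, the bracket and Stokes' formula. -/

open MeasureTheory Set Filter Topology Metric
open scoped ENNReal NNReal RealInnerProductSpace ContDiff

namespace Vale.Agent.P218UE

open Vale.Agent.P218UA
open Vale.Agent.P218UL
open Vale.Agent.P218.H63 (lap hessSq)

section general

variable {E : Type*} [NormedAddCommGroup E] [InnerProductSpace ℝ E] [CompleteSpace E]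

lemma inner_grad (f : E → ℝ) (x v : E) : ⟪gradient f x, v⟫ = fderiv ℝ f x v :=
  inner_gradient_left

lemma contDiff_grad {f : E → ℝ} {m n : WithTop ℕ∞} (hf : ContDiff ℝ n f) (h : m + 1 ≤ n) :
    ContDiff ℝ m (gradient f) :=
  (InnerProductSpace.toDual ℝ E).symm.contDiff.comp (hf.fderiv_right h)

lemma contDiffAt_grad {f : E → ℝ} {m n : WithTop ℕ∞} {x : E} (hf : ContDiffAt ℝ n f x)
    (h : m + 1 ≤ n) : ContDiffAt ℝ m (gradient f) x :=
  (InnerProductSpace.toDual ℝ E).symm.contDiff.contDiffAt.comp x (hf.fderiv_right h)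

lemma smooth_grad {f : E → ℝ} (hf : ContDiff ℝ ∞ f) : ContDiff ℝ ∞ (gradient f) :=
  contDiff_grad hf (by norm_cast)

lemma inner_fderiv_grad {f : E → ℝ} {x : E} (hf : ContDiffAt ℝ 2 f x) (a b : E) :
    ⟪fderiv ℝ (gradient f) x a, b⟫ = fderiv ℝ (fderiv ℝ f) x a b := by
  have h1 : DifferentiableAt ℝ (fderiv ℝ f) x :=
    (hf.fderiv_right (m := 1) (by norm_num)).differentiableAt one_ne_zero
  have h2 : HasFDerivAt (gradient f) _ x :=
    ((InnerProductSpace.toDual ℝ E).symm.toContinuousLinearEquiv.hasFDerivAt).comp x h1.hasFDerivAt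
  rw [h2.fderiv]
  simp [InnerProductSpace.toDual_symm_apply]

lemma fderiv_grad_symm {f : E → ℝ} {x : E} (hf : ContDiffAt ℝ 2 f x) (a b : E) :
    ⟪fderiv ℝ (gradient f) x a, b⟫ = ⟪a, fderiv ℝ (gradient f) x b⟫ := by
  rw [inner_fderiv_grad hf, real_inner_comm, inner_fderiv_grad hf]
  exact ((hf.isSymmSndFDerivAt (by simp)).eq a b)

end general

variable {w f : E3 → ℝ} {x : E3}

lemma two_le : (2 : WithTop ℕ∞) ≤ (∞ : WithTop ℕ∞) := by norm_cast

lemma one_le : (1 : WithTop ℕ∞) ≤ (∞ : WithTop ℕ∞) := by norm_cast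

lemma hs_symm (hf : ContDiffAt ℝ 2 f x) (a b : E3) : ⟪hs f x a, b⟫ = ⟪a, hs f x b⟫ :=
  fderiv_grad_symm hf a b

lemma hasFDerivAt_grad (hf : ContDiffAt ℝ 2 f x) : HasFDerivAt (gradient f) (hs f x) x :=
  ((contDiffAt_grad (m := 1) hf (by norm_num)).differentiableAt one_ne_zero).hasFDerivAt

lemma smooth_hs (hf : ContDiff ℝ ∞ f) : ContDiff ℝ ∞ (hs f) :=
  (smooth_grad hf).fderiv_right (by norm_cast)

lemma continuous_hs (hf : ContDiff ℝ 2 f) : Continuous (hs f) :=
  (contDiff_grad (m := 1) hf (by norm_num)).continuous_fderiv one_ne_zero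

lemma norm_nu (hw : IsSurf w) (hx : w x = 0) : ‖gradient w x‖ = 1 := (hw.eik x hx).self_of_nhds

lemma nu_nu (hw : IsSurf w) (hx : w x = 0) : ⟪gradient w x, gradient w x⟫ = 1 := by
  rw [real_inner_self_eq_norm_sq, norm_nu hw hx, one_pow]

lemma surf2 (hw : IsSurf w) (x : E3) : ContDiffAt ℝ 2 w x := (hw.smooth.of_le two_le).contDiffAt

/-- the image of the second fundamental form is tangent -/
lemma inner_hs_nu (hw : IsSurf w) (hx : w x = 0) (a : E3) : ⟪hs w x a, gradient w x⟫ = 0 := by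
  have h1 := hasFDerivAt_grad (surf2 hw x)
  have h2 := h1.inner ℝ h1
  have h3 : (fun y => ⟪gradient w y, gradient w y⟫) =ᶠ[𝓝 x] fun _ => (1 : ℝ) := by
    filter_upwards [hw.eik x hx] with y hy
    rw [real_inner_self_eq_norm_sq, hy, one_pow]
  have h4 := (h2.congr_of_eventuallyEq h3.symm).unique (hasFDerivAt_const (1 : ℝ) x)
  have h5 := congrArg (fun L : E3 →L[ℝ] ℝ => L a) h4
  simp only [ContinuousLinearMap.comp_apply, ContinuousLinearMap.prod_apply, fderivInnerCLM_apply,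
    ContinuousLinearMap.zero_apply] at h5
  rw [real_inner_comm (hs w x a)] at h5
  linarith

lemma inner_nu_hs (hw : IsSurf w) (hx : w x = 0) (a : E3) : ⟪gradient w x, hs w x a⟫ = 0 := by
  rw [real_inner_comm, inner_hs_nu hw hx]

lemma hs_nu (hw : IsSurf w) (hx : w x = 0) : hs w x (gradient w x) = 0 := by
  rw [← inner_self_eq_zero (𝕜 := ℝ), hs_symm (surf2 hw x), inner_nu_hs hw hx]

lemma hM_apply (a : E3) : hM w f x a = hs f x a - ⟪gradient f x, gradient w x⟫ • hs w x a := rfl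

lemma hM_symm (hw : ContDiffAt ℝ 2 w x) (hf : ContDiffAt ℝ 2 f x) (a b : E3) :
    ⟪hM w f x a, b⟫ = ⟪a, hM w f x b⟫ := by
  simp only [hM_apply, inner_sub_left, inner_sub_right, real_inner_smul_left,
    real_inner_smul_right, hs_symm hw, hs_symm hf]

lemma GG_nonneg : 0 ≤ GG w f x := by unfold GG; positivity

lemma norm_hM_le (hw : IsSurf w) (hx : w x = 0) : ‖hM w f x‖ ≤ GG w f x := by
  refine (norm_sub_le _ _).trans (add_le_add le_rfl ?_)
  rw [norm_smul]
  refine mul_le_mul_of_nonneg_right ?_ (norm_nonneg _)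
  simpa [norm_nu hw hx] using abs_real_inner_le_norm (gradient f x) (gradient w x)

lemma inner_gT {n : E3} (v a : E3) (ha : ⟪n, a⟫ = 0) : ⟪gT n v, a⟫ = ⟪v, a⟫ := by
  simp [gT, inner_sub_left, real_inner_smul_left, ha]

lemma inner_nu_gT {n : E3} (hn : ‖n‖ = 1) (v : E3) : ⟪n, gT n v⟫ = 0 := by
  simp [gT, inner_sub_right, real_inner_smul_right, real_inner_self_eq_norm_sq, hn]

lemma normSq_gT {n : E3} (hn : ‖n‖ = 1) (v : E3) : ‖gT n v‖ ^ 2 = ‖v‖ ^ 2 - ⟪n, v⟫ ^ 2 := by
  rw [← real_inner_self_eq_norm_sq, inner_gT _ _ (inner_nu_gT hn v), gT, inner_sub_right,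
    real_inner_smul_right, real_inner_self_eq_norm_sq, real_inner_comm]
  ring

lemma norm_gT_le {n : E3} (hn : ‖n‖ = 1) (v : E3) : ‖gT n v‖ ≤ ‖v‖ := by
  refine abs_le_of_sq_le_sq' ?_ (norm_nonneg _) |>.2
  rw [normSq_gT hn]
  nlinarith [sq_nonneg ⟪n, v⟫]

lemma contDiff_gM {n : WithTop ℕ∞} (hw : ContDiff ℝ (n + 1) w) (hf : ContDiff ℝ (n + 1) f) :
    ContDiff ℝ n (gM w f) :=
  (contDiff_grad hf le_rfl).sub (((contDiff_grad hw le_rfl).inner ℝ (contDiff_grad hf le_rfl)).smul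
    (contDiff_grad hw le_rfl))

lemma smooth_gM (hw : ContDiff ℝ ∞ w) (hf : ContDiff ℝ ∞ f) : ContDiff ℝ ∞ (gM w f) :=
  (smooth_grad hf).sub (((smooth_grad hw).inner ℝ (smooth_grad hf)).smul (smooth_grad hw))

lemma continuous_hM (hw : ContDiff ℝ 2 w) (hf : ContDiff ℝ 2 f) : Continuous (hM w f) :=
  (continuous_hs hf).sub ((Continuous.inner (𝕜 := ℝ)
    (contDiff_grad (m := 1) hf (by norm_num)).continuous
    (contDiff_grad (m := 1) hw (by norm_num)).continuous).smul (continuous_hs hw))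

lemma continuous_detM (hw : ContDiff ℝ 2 w) (hf : ContDiff ℝ 2 f) : Continuous (detM w f) :=
  continuous_d2 (contDiff_grad (m := 1) hw (by norm_num)).continuous (continuous_hM hw hf)

lemma continuous_GG (hw : ContDiff ℝ 2 w) (hf : ContDiff ℝ 2 f) : Continuous (GG w f) :=
  (continuous_hs hf).norm.add ((contDiff_grad (m := 1) hf (by norm_num)).continuous.norm.mul
    (continuous_hs hw).norm)

lemma continuous_trace : Continuous fun B : E3 →L[ℝ] E3 => LinearMap.trace ℝ E3 B.toLinearMap :=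
  ((LinearMap.trace ℝ E3).comp (ContinuousLinearMap.coeLM ℝ)).continuous_of_finiteDimensional

lemma continuous_lap (hw : ContDiff ℝ 2 w) : Continuous (lap w) :=
  continuous_trace.comp (continuous_hs hw)

lemma continuous_hessSq (hw : ContDiff ℝ 2 w) : Continuous (hessSq w) :=
  continuous_trace.comp ((continuous_hs hw).clm_comp (continuous_hs hw))

lemma continuous_KK (hw : ContDiff ℝ 2 w) : Continuous (KK w) :=
  (((continuous_lap hw).pow 2).sub (continuous_hessSq hw)).div_const 2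

/-- the derivative of the tangential gradient -/
lemma fderiv_gM (hw : ContDiffAt ℝ 2 w x) (hf : ContDiffAt ℝ 2 f x) (a : E3) :
    fderiv ℝ (gM w f) x a = hM w f x a
      - (⟪gradient w x, hs f x a⟫ + ⟪hs w x a, gradient f x⟫) • gradient w x := by
  have h1 := hasFDerivAt_grad hw
  have h2 := hasFDerivAt_grad hf
  have h3 : HasFDerivAt (gM w f) _ x := h2.sub ((h1.inner ℝ h2).smul h1)
  rw [h3.fderiv]
  simp only [sub_apply, add_apply,
    smul_apply, ContinuousLinearMap.smulRight_apply,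
    ContinuousLinearMap.comp_apply, ContinuousLinearMap.prod_apply, fderivInnerCLM_apply, hM_apply]
  rw [real_inner_comm (gradient w x)]
  abel

lemma inner_fderiv_gM (hw : ContDiffAt ℝ 2 w x) (hf : ContDiffAt ℝ 2 f x) (a b : E3)
    (hb : ⟪gradient w x, b⟫ = 0) : ⟪fderiv ℝ (gM w f) x a, b⟫ = ⟪hM w f x a, b⟫ := by
  rw [fderiv_gM hw hf, inner_sub_left, real_inner_smul_left, hb]
  simp

/-- the Gauss curvature in a frame -/
lemma KK_eq (hw : IsSurf w) (hx : w x = 0) : KK w x = d2 (gradient w x) (hs w x) := by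
  obtain ⟨e₁, e₂, h⟩ := exists_fr (norm_nu hw hx)
  have h1 : lap w x = ⟪e₁, hs w x e₁⟫ + ⟪e₂, hs w x e₂⟫ := by
    rw [lap, ← hs, h.trace, inner_nu_hs hw hx, add_zero]
  have h2 : hessSq w x = ⟪e₁, hs w x (hs w x e₁)⟫ + ⟪e₂, hs w x (hs w x e₂)⟫ := by
    rw [hessSq, ← hs, h.trace]
    simp only [ContinuousLinearMap.comp_apply, inner_nu_hs hw hx, add_zero]
  rw [KK, h1, h2, h.d2_eq, ← hs_symm (surf2 hw x) e₁ (hs w x e₁),
    ← hs_symm (surf2 hw x) e₂ (hs w x e₂), h.inner_eq (hs w x e₁), h.inner_eq (hs w x e₂),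
    inner_nu_hs hw hx, inner_nu_hs hw hx, ← hs_symm (surf2 hw x) e₁ e₂, real_inner_comm e₂]
  ring

lemma normSq_hs_le (hw : ContDiffAt ℝ 2 w x) : ‖hs w x‖ ^ 2 ≤ hessSq w x := by
  have h0 : hessSq w x = ∑ i, ‖hs w x (EuclideanSpace.basisFun (Fin 3) ℝ i)‖ ^ 2 := by
    rw [hessSq, ← hs, LinearMap.trace_eq_sum_inner _ (EuclideanSpace.basisFun (Fin 3) ℝ)]
    refine Finset.sum_congr rfl fun i _ => ?_
    rw [← real_inner_self_eq_norm_sq, hs_symm hw]
    rfl
  have h1 : 0 ≤ hessSq w x := h0 ▸ Finset.sum_nonneg fun _ _ => sq_nonneg _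
  rw [← Real.le_sqrt (norm_nonneg _) h1]
  refine ContinuousLinearMap.opNorm_le_bound _ (Real.sqrt_nonneg _) fun v => ?_
  refine abs_le_of_sq_le_sq' ?_ (by positivity) |>.2
  rw [mul_pow, Real.sq_sqrt h1, h0]
  have e : hs w x v = ∑ i, v i • hs w x (EuclideanSpace.basisFun (Fin 3) ℝ i) := by
    conv_lhs => rw [← (EuclideanSpace.basisFun (Fin 3) ℝ).sum_repr v]
    simp only [map_sum, map_smul, EuclideanSpace.basisFun_repr]
  have e2 : ‖hs w x v‖ ≤ ∑ i, ‖hs w x (EuclideanSpace.basisFun (Fin 3) ℝ i)‖ * |v i| := by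
    rw [e]
    refine (norm_sum_le _ _).trans (le_of_eq (Finset.sum_congr rfl fun i _ => ?_))
    rw [norm_smul, mul_comm, Real.norm_eq_abs]
  refine (pow_le_pow_left₀ (norm_nonneg _) e2 2).trans
    ((Finset.sum_mul_sq_le_sq_mul_sq _ _ _).trans (le_of_eq ?_))
  rw [EuclideanSpace.real_norm_sq_eq]
  simp only [sq_abs]

lemma hessSq_nonneg (hw : ContDiffAt ℝ 2 w x) : 0 ≤ hessSq w x :=
  (sq_nonneg _).trans (normSq_hs_le hw)

/-! ### the measure -/

lemma isClosed_zero (hw : IsSurf w) : IsClosed {x | w x = 0} :=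
  isClosed_eq hw.smooth.continuous continuous_const

lemma ae_zero (hw : IsSurf w) : ∀ᵐ x ∂(ar w), w x = 0 :=
  ae_restrict_mem (isClosed_zero hw).measurableSet

lemma finite_ar (hC : Calc) (hw : IsSurf w) (hK : IsCompact {x | w x = 0}) :
    IsFiniteMeasure (ar w) := by
  have := hC.locFin w hw
  refine ⟨?_⟩
  have : ar w univ = ar w {x | w x = 0} := by
    rw [ar, Measure.restrict_apply_univ, Measure.restrict_apply_self]
  rw [this]
  exact hK.measure_lt_top

lemma integrable_ar (hC : Calc) (hw : IsSurf w) (hK : IsCompact {x | w x = 0}) {g : E3 → ℝ}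
    (hg : ContinuousOn g {x | w x = 0}) : Integrable g (ar w) := by
  have := hC.locFin w hw
  have h1 : IntegrableOn g {x | w x = 0} (ar w) := hg.integrableOn_compact hK
  rwa [IntegrableOn, ar, Measure.restrict_restrict (isClosed_zero hw).measurableSet,
    inter_self] at h1

/-- the first variation formula on a compact surface, for tangent vector fields -/
lemma div_zero (hC : Calc) (hw : IsSurf w) (hK : IsCompact {x | w x = 0}) {X : E3 → E3}
    (hX : ContDiff ℝ 1 X) (hT : ∀ x, w x = 0 → ⟪X x, gradient w x⟫ = 0) :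
    ∫ x, trT (gradient w x) (fderiv ℝ X x) ∂(ar w) = 0 := by
  obtain ⟨R, hR, hsub⟩ := hK.isBounded.subset_ball_lt 0 (0 : E3)
  let β : ContDiffBump (0 : E3) := ⟨R, R + 1, hR, by linarith⟩
  have h1 := hC.firstVar w hw (fun x => β x • X x) ((β.contDiff (n := 1)).smul hX)
    (β.hasCompactSupport.smul_right)
  have h2 : ∀ x, w x = 0 → (fun x => β x • X x) =ᶠ[𝓝 x] X := fun x hx => by
    filter_upwards [β.eventuallyEq_one_of_mem_ball (hsub hx)] with y hy
    simp [hy]
  rw [← integral_congr_ae (f := fun x => trT (gradient w x) (fderiv ℝ (fun x => β x • X x) x))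
    ((ae_zero hw).mono fun x hx => by simp only [(h2 x hx).fderiv_eq]), h1]
  refine integral_eq_zero_of_ae ((ae_zero hw).mono fun x hx => ?_)
  simp only [real_inner_smul_left, hT x hx, mul_zero, Pi.zero_apply]

/-- the bracket of two functions on the surface -/
noncomputable def br (w a b : E3 → ℝ) (x : E3) : ℝ :=
  ⟪gradient w x, cr (gradient a x) (gradient b x)⟫

lemma br_eq {e₁ e₂ : E3} (h : Fr (gradient w x) e₁ e₂) (a b : E3 → ℝ) : br w a b x
    = fderiv ℝ a x e₁ * fderiv ℝ b x e₂ - fderiv ℝ a x e₂ * fderiv ℝ b x e₁ := by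
  rw [br, h.c3]
  simp only [real_inner_comm _ e₁, real_inner_comm _ e₂, ← inner_grad]
  ring

lemma Fr_trT {n e₁ e₂ : E3} (h : Fr n e₁ e₂) (B : E3 →L[ℝ] E3) :
    trT n B = ⟪e₁, B e₁⟫ + ⟪e₂, B e₂⟫ := by
  rw [trT, h.trace, real_inner_comm n]
  ring

/-- **Stokes' formula** -/
theorem stokes (hC : Calc) (hw : IsSurf w) (hK : IsCompact {x | w x = 0}) {a b : E3 → ℝ}
    (ha : ContDiff ℝ 1 a) (hb : ContDiff ℝ 2 b) : ∫ x, br w a b x ∂(ar w) = 0 := by
  have hn : ContDiff ℝ 1 (gradient w) := (smooth_grad hw.smooth).of_le one_le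
  have hg : ContDiff ℝ 1 (gradient b) := contDiff_grad hb (by norm_num)
  have h1 := div_zero hC hw hK (X := fun x => a x • cr (gradient w x) (gradient b x))
    (ha.smul (contDiff_cr hn hg)) fun x _ => by
      rw [real_inner_smul_left, real_inner_comm, inner_cr_left, mul_zero]
  rw [← neg_eq_zero, ← integral_neg, ← h1]
  refine integral_congr_ae ((ae_zero hw).mono fun x hx => ?_)
  obtain ⟨e₁, e₂, h⟩ := exists_fr (norm_nu hw hx)
  have d1 := ha.differentiable one_ne_zero x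
  have d2 := (contDiff_cr hn hg).differentiable one_ne_zero x
  have d3 := fun v => fderiv_cr (hn.differentiable one_ne_zero x) (hg.differentiable one_ne_zero x) v
  have s1 := hs_symm (surf2 hw x) e₁ e₂
  have s2 := hs_symm (hb.contDiffAt (x := x)) e₁ e₂
  simp only [br_eq h, Fr_trT h, fderiv_fun_smul d1 d2, add_apply,
    smul_apply, ContinuousLinearMap.smulRight_apply, inner_add_right,
    real_inner_smul_right, d3, h.c1, h.c2, h.o13, h.o23, h.i33]
  simp only [← hs.eq_1, inner_nu_hs hw hx, real_inner_comm _ e₁, real_inner_comm _ e₂,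
    ← inner_grad] at s1 s2 ⊢
  rw [s1, s2]
  ring

end Vale.Agent.P218UE
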