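import Vale.Agent.P218UE.Basic
import Vale.Agent.P218UG.Stack

/-! Local Gauss-Bonnet estimate: graph charts, isolated critical points. -/

open MeasureTheory Set Filter Topology Metric
open scoped NNReal RealInnerProductSpace ContDiff

namespace Vale.Agent.P218UE

open Vale.Agent.P218UA
open Vale.Agent.P218UL

/-- the inclusion of the horizontal plane -/
noncomputable def lift : E2 →L[ℝ] E3 := LinearMap.toContinuousLinearMap
  { toFun := fun a => !₂[a 0, a 1, 0]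
    map_add' := fun a b => by apply ext3 <;> simp
    map_smul' := fun c a => by apply ext3 <;> simp }

lemma lift_apply (a : E2) : lift a = !₂[a 0, a 1, 0] := rfl

/-- the vertical unit vector -/
noncomputable def e3 : E3 := !₂[0, 0, 1]

lemma vec_eq (a : E2) (s : ℝ) : (!₂[a 0, a 1, s] : E3) = lift a + s • e3 := by
  apply ext3 <;> simp [lift_apply, e3]

lemma pt_eq (Q : E3 ≃ₗᵢ[ℝ] E3) (p : E3) (ξ : E2) (s : ℝ) :
    pt Q p ξ s = p + Q (lift ξ) + s • Q e3 := by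
  rw [pt, vec_eq, map_add, map_smul, add_assoc]

lemma inner_e3_lift (a : E2) : ⟪e3, lift a⟫ = 0 := by simp [inner3, e3, lift_apply]

lemma norm_e3 : ‖e3‖ = 1 := by
  have := normSq3 e3
  simp only [e3] at this ⊢
  nlinarith [norm_nonneg (!₂[0, 0, 1] : E3), show (!₂[0, 0, 1] : E3) 0 = 0 from rfl,
    show (!₂[0, 0, 1] : E3) 1 = 0 from rfl, show (!₂[0, 0, 1] : E3) 2 = 1 from rfl]

lemma inner2 (a b : E2) : ⟪a, b⟫ = a 0 * b 0 + a 1 * b 1 := by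
  simp only [PiLp.inner_apply, Fin.sum_univ_two, RCLike.inner_apply, conj_trivial]
  ring

lemma inner_lift (a b : E2) : ⟪lift a, lift b⟫ = ⟪a, b⟫ := by
  simp [inner3, inner2, lift_apply]

lemma norm_lift (a : E2) : ‖lift a‖ = ‖a‖ := by
  rw [← sq_eq_sq₀ (norm_nonneg _) (norm_nonneg _), ← real_inner_self_eq_norm_sq,
    ← real_inner_self_eq_norm_sq, inner_lift]

lemma contDiff_pt (Q : E3 ≃ₗᵢ[ℝ] E3) (p : E3) {n : WithTop ℕ∞} :
    ContDiff ℝ n fun v : E2 × ℝ => pt Q p v.1 v.2 := by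
  simp only [pt_eq]
  exact (contDiff_const.add (Q.contDiff.comp (lift.contDiff.comp contDiff_fst))).add
    (contDiff_snd.smul contDiff_const)

/-- the parametrisation by a graph -/
noncomputable def par (Q : E3 ≃ₗᵢ[ℝ] E3) (p : E3) (u : E2 → ℝ) (ξ : E2) : E3 := pt Q p ξ (u ξ)

lemma contDiffAt_par {Q : E3 ≃ₗᵢ[ℝ] E3} {p : E3} {u : E2 → ℝ} {ξ : E2} {n : WithTop ℕ∞}
    (hu : ContDiffAt ℝ n u ξ) : ContDiffAt ℝ n (par Q p u) ξ :=
  (contDiff_pt Q p).contDiffAt.comp ξ (contDiffAt_id.prodMk hu)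

/-- the derivative of the parametrisation -/
noncomputable def dpar (Q : E3 ≃ₗᵢ[ℝ] E3) (u : E2 → ℝ) (ξ : E2) : E2 →L[ℝ] E3 :=
  (Q.toContinuousLinearEquiv : E3 →L[ℝ] E3).comp lift + (fderiv ℝ u ξ).smulRight (Q e3)

lemma dpar_apply (Q : E3 ≃ₗᵢ[ℝ] E3) (u : E2 → ℝ) (ξ a : E2) :
    dpar Q u ξ a = Q (lift a) + fderiv ℝ u ξ a • Q e3 := rfl

lemma hasFDerivAt_par {Q : E3 ≃ₗᵢ[ℝ] E3} {p : E3} {u : E2 → ℝ} {ξ : E2}
    (hu : DifferentiableAt ℝ u ξ) : HasFDerivAt (par Q p u) (dpar Q u ξ) ξ := by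
  have : par Q p u = fun ζ => p + ((Q.toContinuousLinearEquiv : E3 →L[ℝ] E3).comp lift) ζ
      + u ζ • Q e3 := funext fun ζ => pt_eq Q p ζ (u ζ)
  rw [this]
  exact ((ContinuousLinearMap.hasFDerivAt _).const_add p).add (hu.hasFDerivAt.smul_const _)

lemma norm_le_dpar (Q : E3 ≃ₗᵢ[ℝ] E3) (u : E2 → ℝ) (ξ a : E2) : ‖a‖ ≤ ‖dpar Q u ξ a‖ := by
  rw [dpar_apply, ← map_smul, ← map_add, Q.norm_map]
  refine abs_le_of_sq_le_sq' ?_ (norm_nonneg _) |>.2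
  rw [norm_add_sq_real, norm_lift, real_inner_smul_right, real_inner_comm, inner_e3_lift]
  nlinarith [sq_nonneg ‖fderiv ℝ u ξ a • e3‖]

/-- the image of the derivative of the parametrisation is tangent -/
lemma inner_dpar {w : E3 → ℝ} {Q : E3 ≃ₗᵢ[ℝ] E3} {p : E3} {u : E2 → ℝ} {ξ : E2}
    (hw : DifferentiableAt ℝ w (par Q p u ξ)) (hu : DifferentiableAt ℝ u ξ)
    (h0 : ∀ᶠ ζ in 𝓝 ξ, w (par Q p u ζ) = 0) (a : E2) :
    ⟪gradient w (par Q p u ξ), dpar Q u ξ a⟫ = 0 := by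
  have h1 := hw.hasFDerivAt.comp ξ (hasFDerivAt_par hu)
  have h2 := (h1.congr_of_eventuallyEq (f₁ := fun _ => (0 : ℝ))
    (h0.mono fun ζ h => h.symm)).unique (hasFDerivAt_const (0 : ℝ) ξ)
  rw [inner_grad]
  exact congrArg (fun L : E2 →L[ℝ] ℝ => L a) h2

lemma exists_iso {n e₁ e₂ : E3} (h : Fr n e₁ e₂) : ∃ Q : E3 ≃ₗᵢ[ℝ] E3,
    (∀ a : E2, Q (lift a) = a 0 • e₁ + a 1 • e₂) ∧ Q e3 = n := by
  have h1 : ∀ v : E3, h.basis.repr.symm v = v 0 • e₁ + v 1 • e₂ + v 2 • n := fun v => by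
    rw [← h.basis.sum_repr_symm, Fin.sum_univ_three]
    simp only [h.basis_apply, Matrix.cons_val_zero, Matrix.cons_val_one, Matrix.cons_val]
  exact ⟨h.basis.repr.symm, fun a => by simp [h1, lift_apply], by simp [h1, e3]⟩

/-- a chart in a prescribed frame -/
theorem chart_of_iso {w : E3 → ℝ} (hw : IsSurf w) {x₀ : E3} (hx : w x₀ = 0)
    {Q : E3 ≃ₗᵢ[ℝ] E3} (hQ : Q e3 = gradient w x₀) {η : ℝ} (hη : 0 < η) :
    ∃ (R h : ℝ) (u : E2 → ℝ), 0 < R ∧ 0 < h ∧ R < η ∧ h < η ∧ ContDiffOn ℝ ∞ u (ball 0 R) ∧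
      IsGraph {x | w x = 0} Q x₀ R h u ∧ u 0 = 0 ∧ gradient u 0 = 0 ∧
      ∀ ξ ∈ ball (0 : E2) R, ‖gradient u ξ‖ ≤ η := by
  set F : E2 × ℝ → ℝ := fun v => w (pt Q x₀ v.1 v.2) with hF
  have hFs : ContDiff ℝ ∞ F := hw.smooth.comp (contDiff_pt Q x₀)
  have p0 : pt Q x₀ 0 0 = x₀ := by simp [pt_eq]
  have hd : ∀ v : E2 × ℝ, fderiv ℝ F v (0, 1) = ⟪gradient w (pt Q x₀ v.1 v.2), Q e3⟫ := by
    intro v
    have h1 : HasDerivAt (fun s : ℝ => (v.1, s)) ((0 : E2), (1 : ℝ)) v.2 :=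
      (hasDerivAt_const _ _).prodMk (hasDerivAt_id _)
    have h2 := (hFs.differentiable (by simp) v).hasFDerivAt.comp_hasDerivAt v.2 h1
    have h3 : HasDerivAt (fun s : ℝ => pt Q x₀ v.1 s) (Q e3) v.2 := by
      simp only [pt_eq]
      simpa using ((hasDerivAt_id v.2).smul_const (Q e3)).const_add (x₀ + Q (lift v.1))
    have h4 := (hw.smooth.differentiable (by simp) _).hasFDerivAt.comp_hasDerivAt v.2 h3
    rw [inner_grad]
    exact h2.unique h4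
  have hd0 : fderiv ℝ F (0, 0) (0, 1) ≠ 0 := by
    rw [hd, p0, hQ, nu_nu hw hx]; exact one_ne_zero
  obtain ⟨u, hu, hu0, hev⟩ := P218UG.exists_implicit (n := ∞) (by simp) (p := 0) (s := 0)
    hFs.contDiffAt (by simp only [hF, p0, hx]) hd0
  have hu1 : ContDiffAt ℝ 1 u 0 := hu.of_le one_le
  have t0 : Tendsto (fun ξ => (ξ, u ξ)) (𝓝 0) (𝓝 (0, 0)) := by
    have := tendsto_id.prodMk_nhds hu.continuousAt.tendsto
    rwa [hu0] at this
  have z0 : ∀ᶠ ξ in 𝓝 (0 : E2), F (ξ, u ξ) = 0 := (t0.eventually hev).mono fun ξ h => h.2 rfl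
  have c1 : ∀ᶠ ξ in 𝓝 (0 : E2), fderiv ℝ F (ξ, u ξ) (0, 1) ≠ 0 :=
    t0.eventually (((hFs.continuous_fderiv (by simp)).clm_apply
      continuous_const).continuousAt.eventually_ne hd0)
  have c2 : ∀ᶠ ξ in 𝓝 (0 : E2), ContDiffAt ℝ ∞ u ξ := by
    filter_upwards [z0.eventually_nhds, c1, hu1.eventually (by simp)] with ξ h1 h2 h3
    obtain ⟨φ, hφ, -, hev'⟩ := P218UG.exists_implicit (n := ∞) (by simp) hFs.contDiffAt
      h1.self_of_nhds h2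
    refine hφ.congr_of_eventuallyEq ?_
    filter_upwards [h1, (tendsto_id.prodMk_nhds h3.continuousAt.tendsto).eventually hev']
      with ζ a b using (b.1 a).symm
  have g0 : gradient u 0 = 0 := by
    have pp : par Q x₀ u 0 = x₀ := by rw [par, hu0, p0]
    refine ext_inner_right ℝ fun a => ?_
    have := inner_dpar (Q := Q) (p := x₀) (hw.smooth.differentiable (by simp) _)
      (hu1.differentiableAt one_ne_zero) z0 a
    rw [pp, ← hQ, dpar_apply, inner_add_right, real_inner_smul_right, Q.inner_map_map,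
      Q.inner_map_map, inner_e3_lift, real_inner_self_eq_norm_sq, norm_e3] at this
    rw [inner_grad, inner_zero_left]
    linarith
  have c3 : ∀ᶠ ξ in 𝓝 (0 : E2), ‖gradient u ξ‖ ≤ η := by
    have := (contDiffAt_grad (m := 0) hu1 (by simp)).continuousAt.norm.tendsto
    rw [g0, norm_zero] at this
    exact this.eventually (ge_mem_nhds hη)
  obtain ⟨V, hV, I, hI, hVI⟩ := mem_nhds_prod_iff.1 hev
  obtain ⟨h, hh, hhI⟩ := Metric.mem_nhds_iff.1 hI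
  have hm : 0 < min h (η / 2) := lt_min hh (half_pos hη)
  have c4 : ∀ᶠ ξ in 𝓝 (0 : E2), |u ξ| < min h (η / 2) := by
    have := hu.continuousAt.abs.tendsto
    rw [hu0, abs_zero] at this
    exact this.eventually (gt_mem_nhds hm)
  obtain ⟨R, hR, hRb⟩ := Metric.mem_nhds_iff.1 (c2.and (c3.and (c4.and hV)))
  have hs : ball (0 : E2) (min R (η / 2)) ⊆ ball 0 R := ball_subset_ball (min_le_left _ _)
  refine ⟨min R (η / 2), min h (η / 2), u, lt_min hR (half_pos hη), hm,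
    (min_le_right _ _).trans_lt (half_lt_self hη), (min_le_right _ _).trans_lt (half_lt_self hη),
    fun ξ hξ => (hRb (hs hξ)).1.contDiffWithinAt, fun ξ hξ => ?_, hu0, g0,
    fun ξ hξ => (hRb (hs hξ)).2.1⟩
  have k := hRb (hs (mem_ball_zero_iff.2 hξ))
  refine ⟨k.2.2.1, fun s hs' => ?_⟩
  have := hVI (mk_mem_prod k.2.2.2 (hhI (mem_ball_zero_iff.2 (hs'.trans_le (min_le_left _ _)))))
  exact this.trans eq_comm

theorem chart : ChartStmt := by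
  intro w hw x₀ hx η hη
  obtain ⟨e₁, e₂, h⟩ := exists_fr (norm_nu hw hx)
  obtain ⟨Q, -, hQ⟩ := exists_iso h
  obtain ⟨R, h, u, h1, h2, h3, h4, h5, h6, h7, h8, h9⟩ := chart_of_iso hw hx hQ hη
  exact ⟨Q, R, h, u, h1, h2, h3, h4, h5, h6, h7, h8, hQ, h9⟩

/-- the open cylinder -/
def cyl (Q : E3 ≃ₗᵢ[ℝ] E3) (p : E3) (R h : ℝ) : Set E3 :=
  {x | ∃ ξ s, ‖ξ‖ < R ∧ |s| < h ∧ x = pt Q p ξ s}

/-- the horizontal projection -/
noncomputable def prj : E3 →L[ℝ] E2 := LinearMap.toContinuousLinearMap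
  { toFun := fun a => !₂[a 0, a 1]
    map_add' := fun a b => by ext i; fin_cases i <;> simp
    map_smul' := fun c a => by ext i; fin_cases i <;> simp }

lemma prj_apply (a : E3) : prj a = !₂[a 0, a 1] := rfl

lemma prj_vec (a : E2) (s : ℝ) : prj !₂[a 0, a 1, s] = a := by
  ext i; fin_cases i <;> simp [prj_apply]

lemma vec_prj (a : E3) : (!₂[prj a 0, prj a 1, a 2] : E3) = a := by
  apply ext3 <;> simp [prj_apply]

lemma pt_prj (Q : E3 ≃ₗᵢ[ℝ] E3) (p x : E3) :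
    pt Q p (prj (Q.symm (x - p))) (Q.symm (x - p) 2) = x := by
  rw [pt, vec_prj]; simp

lemma symm_pt (Q : E3 ≃ₗᵢ[ℝ] E3) (p : E3) (ξ : E2) (s : ℝ) :
    Q.symm (pt Q p ξ s - p) = !₂[ξ 0, ξ 1, s] := by simp [pt]

lemma cyl_eq (Q : E3 ≃ₗᵢ[ℝ] E3) (p : E3) (R h : ℝ) :
    cyl Q p R h = {x | ‖prj (Q.symm (x - p))‖ < R ∧ |Q.symm (x - p) 2| < h} := by
  ext x
  constructor
  · rintro ⟨ξ, s, h1, h2, rfl⟩
    rw [mem_setOf_eq, symm_pt, prj_vec]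
    exact ⟨h1, by simpa using h2⟩
  · exact fun h => ⟨_, _, h.1, h.2, (pt_prj Q p x).symm⟩

lemma isOpen_cyl (Q : E3 ≃ₗᵢ[ℝ] E3) (p : E3) (R h : ℝ) : IsOpen (cyl Q p R h) := by
  rw [cyl_eq]
  have h1 : Continuous fun x => ‖prj (Q.symm (x - p))‖ := by fun_prop
  have h2 : Continuous fun x => |Q.symm (x - p) 2| := by fun_prop
  exact (isOpen_lt h1 continuous_const).inter (isOpen_lt h2 continuous_const)

lemma mem_cyl (Q : E3 ≃ₗᵢ[ℝ] E3) (p : E3) {R h : ℝ} (hR : 0 < R) (hh : 0 < h) :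
    p ∈ cyl Q p R h := ⟨0, 0, by simpa, by simpa, by simp [pt_eq]⟩

lemma norm_pt_sub (Q : E3 ≃ₗᵢ[ℝ] E3) (p : E3) (ξ : E2) (s : ℝ) :
    ‖pt Q p ξ s - p‖ ≤ ‖ξ‖ + |s| := by
  rw [pt_eq, add_assoc, add_sub_cancel_left]
  refine (norm_add_le _ _).trans (le_of_eq ?_)
  rw [Q.norm_map, norm_lift, norm_smul, Q.norm_map, norm_e3, mul_one, Real.norm_eq_abs]

lemma cyl_subset (Q : E3 ≃ₗᵢ[ℝ] E3) (p : E3) (R h : ℝ) : cyl Q p R h ⊆ ball p (R + h) := by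
  rintro _ ⟨ξ, s, h1, h2, rfl⟩
  rw [mem_ball, dist_eq_norm]
  linarith [norm_pt_sub Q p ξ s]

variable {M : Set E3} {Q : E3 ≃ₗᵢ[ℝ] E3} {p : E3} {R h : ℝ} {u : E2 → ℝ}

lemma par_mem (hG : IsGraph M Q p R h u) {ξ : E2} (hξ : ξ ∈ ball (0 : E2) R) :
    par Q p u ξ ∈ M ∩ cyl Q p R h := by
  have k := hG ξ (mem_ball_zero_iff.1 hξ)
  exact ⟨(k.2 _ k.1).2 rfl, ξ, u ξ, mem_ball_zero_iff.1 hξ, k.1, rfl⟩

lemma image_par (hG : IsGraph M Q p R h u) : par Q p u '' ball 0 R = M ∩ cyl Q p R h := by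
  refine Subset.antisymm (image_subset_iff.2 fun ξ hξ => par_mem hG hξ) ?_
  rintro _ ⟨h0, ξ, s, h1, h2, rfl⟩
  exact ⟨ξ, mem_ball_zero_iff.2 h1, by rw [par, ← ((hG ξ h1).2 s h2).1 h0]⟩

lemma IsGraph_mono (hG : IsGraph M Q p R h u) {R' : ℝ} (hR : R' ≤ R) : IsGraph M Q p R' h u :=
  fun ξ hξ => hG ξ (hξ.trans_le hR)

/-! ### nondegenerate critical points -/

variable {w f : E3 → ℝ} {x : E3}

lemma d2_inj {n : E3} (hn : ‖n‖ = 1) {B : E3 →L[ℝ] E3} (hB : d2 n B ≠ 0) {a : E3}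
    (ha : ⟪n, a⟫ = 0) (h : ∀ b, ⟪n, b⟫ = 0 → ⟪B a, b⟫ = 0) : a = 0 := by
  obtain ⟨e₁, e₂, F⟩ := exists_fr hn
  rw [F.d2_eq] at hB
  have h1 := h e₁ F.o31
  have h2 := h e₂ F.o32
  have e := F.expand a
  rw [ha, zero_smul, add_zero] at e
  rw [e] at h1 h2
  simp only [map_add, map_smul, inner_add_left, real_inner_smul_left, real_inner_comm _ (B _)]
    at h1 h2
  have k1 : ⟪e₁, a⟫ = 0 := by
    refine (mul_eq_zero.1 ?_).resolve_right hB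
    linear_combination ⟪e₂, B e₂⟫ * h1 - ⟪e₁, B e₂⟫ * h2
  have k2 : ⟪e₂, a⟫ = 0 := by
    refine (mul_eq_zero.1 ?_).resolve_right hB
    linear_combination ⟪e₁, B e₁⟫ * h2 - ⟪e₂, B e₁⟫ * h1
  rw [e, k1, k2]; simp

lemma exists_d2_ker {n : E3} (hn : ‖n‖ = 1) {B : E3 →L[ℝ] E3} (hB : d2 n B = 0) :
    ∃ a, a ≠ 0 ∧ ⟪n, a⟫ = 0 ∧ ∀ b, ⟪n, b⟫ = 0 → ⟪B a, b⟫ = 0 := by
  obtain ⟨e₁, e₂, F⟩ := exists_fr hn
  rw [F.d2_eq] at hB
  have key : ∀ s t : ℝ, (s ≠ 0 ∨ t ≠ 0) → s * ⟪e₁, B e₁⟫ + t * ⟪e₁, B e₂⟫ = 0 →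
      s * ⟪e₂, B e₁⟫ + t * ⟪e₂, B e₂⟫ = 0 →
      ∃ a, a ≠ 0 ∧ ⟪n, a⟫ = 0 ∧ ∀ b, ⟪n, b⟫ = 0 → ⟪B a, b⟫ = 0 := by
    intro s t h0 h1 h2
    refine ⟨s • e₁ + t • e₂, fun h => ?_, by simp [inner_add_right, real_inner_smul_right,
      F.o31, F.o32], fun b hb => ?_⟩
    · have a1 := congrArg (fun v => ⟪e₁, v⟫) h
      have a2 := congrArg (fun v => ⟪e₂, v⟫) h
      simp only [inner_add_right, real_inner_smul_right, F.i11, F.i22, F.o12, F.o21,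
        inner_zero_right] at a1 a2
      rcases h0 with h0 | h0
      · exact h0 (by linarith)
      · exact h0 (by linarith)
    · rw [F.inner_eq, hb]
      simp only [map_add, map_smul, inner_add_right, real_inner_smul_right, h1, h2]
      ring
  by_cases h1 : ⟪e₁, B e₂⟫ ≠ 0 ∨ ⟪e₁, B e₁⟫ ≠ 0
  · exact key (-⟪e₁, B e₂⟫) ⟪e₁, B e₁⟫ (by simpa using h1) (by ring) (by linarith)
  push Not at h1
  by_cases h2 : ⟪e₂, B e₂⟫ ≠ 0 ∨ ⟪e₂, B e₁⟫ ≠ 0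
  · exact key (-⟪e₂, B e₂⟫) ⟪e₂, B e₁⟫ (by simpa using h2) (by linarith) (by ring)
  push Not at h2
  exact key 1 0 (Or.inl one_ne_zero) (by simp [h1.2]) (by simp [h2.2])

/-- nondegenerate critical points are isolated -/
lemma isolated (hw : IsSurf w) (hf : ContDiff ℝ 2 f) (hx : w x = 0) (hg : gM w f x = 0)
    (hd : detM w f x ≠ 0) : ∀ᶠ y in 𝓝[≠] x, ¬(w y = 0 ∧ gM w f y = 0) := by
  have h1 : HasFDerivAt (gM w f) (fderiv ℝ (gM w f) x) x :=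
    ((contDiff_gM (n := 1) (hw.smooth.of_le two_le) hf).differentiable one_ne_zero x).hasFDerivAt
  have h2 := (hw.smooth.differentiable (by simp) x).hasFDerivAt.prodMk h1
  have h3 : Function.Injective ((fderiv ℝ w x).prod (fderiv ℝ (gM w f) x)) := by
    refine (injective_iff_map_eq_zero _).2 fun a ha => ?_
    have a1 : fderiv ℝ w x a = 0 := congrArg Prod.fst ha
    have a2 : fderiv ℝ (gM w f) x a = 0 := congrArg Prod.snd ha
    refine d2_inj (norm_nu hw hx) hd (by rw [inner_grad, a1]) fun b hb => ?_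
    rw [← inner_fderiv_gM (surf2 hw x) hf.contDiffAt a b hb, a2, inner_zero_left]
  obtain ⟨K, -, hK⟩ := LinearMap.exists_antilipschitzWith
    ((fderiv ℝ w x).prod (fderiv ℝ (gM w f) x)).toLinearMap (LinearMap.ker_eq_bot.2 h3)
  filter_upwards [h2.eventually_ne (c := (w x, gM w f x)) ⟨K, hK⟩] with y hy h
  exact hy (by rw [h.1, h.2, hx, hg])

lemma finite_crit (hw : IsSurf w) (hK : IsCompact {x | w x = 0}) (hf : ContDiff ℝ 2 f)
    (hd : ∀ x, w x = 0 → gM w f x = 0 → detM w f x ≠ 0) :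
    {x | w x = 0 ∧ gM w f x = 0}.Finite := by
  have h1 : IsCompact {x | w x = 0 ∧ gM w f x = 0} := hK.inter_right (isClosed_eq
    (contDiff_gM (n := 1) (hw.smooth.of_le two_le) hf).continuous continuous_const)
  refine h1.finite (isDiscrete_iff_nhdsNE.2 fun x hx => ?_)
  rw [inf_principal_eq_bot]
  exact isolated hw hf hx.1 hx.2 (hd x hx.1 hx.2)

end Vale.Agent.P218UE
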