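import Vale.Agent.P218UE.Chart
import Mathlib.Analysis.SpecialFunctions.JapaneseBracket
import Mathlib.MeasureTheory.Constructions.HaarToSphere
import Mathlib.MeasureTheory.Measure.Lebesgue.VolumeOfBalls
import Mathlib.MeasureTheory.Integral.IntegralEqImproper

/-! Local Gauss-Bonnet estimate: the area formula in a chart and concentration at a zero. -/

open MeasureTheory Set Filter Topology Metric
open scoped NNReal RealInnerProductSpace ContDiff

namespace Vale.Agent.P218UE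

open Vale.Agent.P218UA
open Vale.Agent.P218UL

variable {w : E3 → ℝ} {Q : E3 ≃ₗᵢ[ℝ] E3} {p : E3} {R h : ℝ} {u : E2 → ℝ}

lemma continuousOn_par (hu : ContDiffOn ℝ 1 u (ball 0 R)) :
    ContinuousOn (par Q p u) (ball 0 R) := fun _ hξ =>
  (contDiffAt_par (hu.contDiffAt (isOpen_ball.mem_nhds hξ))).continuousAt.continuousWithinAt

lemma continuousOn_jac (hu : ContDiffOn ℝ 1 u (ball 0 R)) :
    ContinuousOn (fun ξ => √(1 + ‖gradient u ξ‖ ^ 2)) (ball 0 R) := fun _ hξ =>
  ((((contDiffAt_grad (m := 0) (hu.contDiffAt (isOpen_ball.mem_nhds hξ))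
    (by simp)).continuousAt.norm.pow 2).const_add 1).sqrt).continuousWithinAt

lemma restrict_cyl (hG : Graph) (hw : IsSurf w) (hg : IsGraph {x | w x = 0} Q p R h u)
    (hu : ContDiffOn ℝ 1 u (ball 0 R)) : (ar w).restrict (cyl Q p R h)
      = ((volume.restrict (ball (0 : E2) R)).withDensity
        fun ξ => ENNReal.ofReal √(1 + ‖gradient u ξ‖ ^ 2)).map (par Q p u) := by
  have h1 : AEMeasurable (par Q p u) (volume.restrict (ball (0 : E2) R)) :=
    (continuousOn_par hu).aemeasurable measurableSet_ball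
  have h2 := ((continuousOn_jac hu).aemeasurable (μ := volume) measurableSet_ball).ennreal_ofReal
  refine Measure.ext_of_lintegral _ fun f hf => ?_
  rw [lintegral_map' hf.aemeasurable (h1.mono' (withDensity_absolutelyContinuous _ _)),
    lintegral_withDensity_eq_lintegral_mul₀ (g := fun a => f (par Q p u a)) h2
      (hf.comp_aemeasurable h1)]
  refine (hG.area w hw Q p R h u hg hu f hf).trans (lintegral_congr fun ξ => ?_)
  rw [mul_comm]
  rfl

/-- the area formula in a chart -/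
theorem integral_chart (hG : Graph) (hw : IsSurf w) (hg : IsGraph {x | w x = 0} Q p R h u)
    (hu : ContDiffOn ℝ 1 u (ball 0 R)) {F : E3 → ℝ}
    (hF : AEStronglyMeasurable F ((ar w).restrict (cyl Q p R h))) :
    ∫ x in cyl Q p R h, F x ∂(ar w)
      = ∫ ξ in ball (0 : E2) R, F (par Q p u ξ) * √(1 + ‖gradient u ξ‖ ^ 2) := by
  have h1 : AEMeasurable (par Q p u) (volume.restrict (ball (0 : E2) R)) :=
    (continuousOn_par hu).aemeasurable measurableSet_ball
  have h2 := ((continuousOn_jac hu).aemeasurable (μ := volume) measurableSet_ball).ennreal_ofReal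
  rw [restrict_cyl hG hw hg hu] at hF ⊢
  rw [integral_map (h1.mono' (withDensity_absolutelyContinuous _ _)) hF,
    integral_withDensity_eq_integral_toReal_smul₀ h2 (by simp)]
  refine integral_congr_ae (Eventually.of_forall fun ξ => ?_)
  simp only [ENNReal.toReal_ofReal (Real.sqrt_nonneg _), smul_eq_mul, mul_comm]

lemma integral_bubble : ∫ y : E2, ((‖y‖ ^ 2 + 1) ^ 2)⁻¹ = Real.pi := by
  have h1 := integral_fun_norm_addHaar (volume : Measure E2) fun s : ℝ => ((s ^ 2 + 1) ^ 2)⁻¹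
  have h2 : ∫ y in Ioi (0 : ℝ), y * ((y ^ 2 + 1) ^ 2)⁻¹ = 0 - -(2 * ((0 : ℝ) ^ 2 + 1))⁻¹ := by
    refine integral_Ioi_of_hasDerivAt_of_nonneg' (g := fun y => -(2 * (y ^ 2 + 1))⁻¹)
      (fun y _ => ?_) (fun y hy => mul_nonneg (le_of_lt hy) (by positivity)) ?_
    · have := ((((hasDerivAt_pow 2 y).add_const 1).const_mul 2).inv (by positivity)).neg
      refine this.congr_deriv ?_
      field_simp
      norm_num
    · rw [← neg_zero]
      refine (tendsto_inv_atTop_zero.comp ?_).neg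
      exact (tendsto_atTop_add_const_right _ _ (tendsto_pow_atTop two_ne_zero)).const_mul_atTop
        two_pos
  rw [h1]
  simp only [finrank_euclideanSpace, Fintype.card_fin, Nat.add_one_sub_one, pow_one, smul_eq_mul,
    h2, Measure.real, EuclideanSpace.volume_ball_fin_two]
  simp [Real.pi_pos.le]
  ring

lemma integrable_bubble {c : ℝ} (hc : c ≠ 0) :
    Integrable fun y : E2 => ((‖c • y‖ ^ 2 + 1) ^ 2)⁻¹ := by
  have h1 := integrable_rpow_neg_one_add_norm_sq (E := E2) (μ := volume) (r := 4)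
    (by simp; norm_num)
  refine (h1.comp_smul hc).congr (Eventually.of_forall fun y => ?_)
  have : (-4 / 2 : ℝ) = -((2 : ℕ) : ℝ) := by norm_num
  simp only [this]
  rw [Real.rpow_neg (by positivity), Real.rpow_natCast, add_comm]

lemma integral_bubble_lin {T : E2 →L[ℝ] E2} (hT : LinearMap.det T.toLinearMap ≠ 0) :
    ∫ y : E2, ((‖T y‖ ^ 2 + 1) ^ 2)⁻¹ = Real.pi / |LinearMap.det T.toLinearMap| := by
  have h1 := Measure.map_linearMap_addHaar_eq_smul_addHaar (volume : Measure E2) hT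
  have h2 : Continuous fun y : E2 => ((‖y‖ ^ 2 + 1) ^ 2)⁻¹ :=
    Continuous.inv₀ (by fun_prop) fun y => by positivity
  have h3 := integral_map (μ := volume) (φ := T.toLinearMap) T.continuous.aemeasurable
    h2.aestronglyMeasurable
  rw [h1, integral_smul_measure, integral_bubble, ENNReal.toReal_ofReal (abs_nonneg _)] at h3
  rw [div_eq_inv_mul, ← abs_inv]
  exact h3.symm

lemma det_two (T : E2 →L[ℝ] E2) : LinearMap.det T.toLinearMap
    = T !₂[1, 0] 0 * T !₂[0, 1] 1 - T !₂[0, 1] 0 * T !₂[1, 0] 1 := by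
  have e0 : (EuclideanSpace.basisFun (Fin 2) ℝ).toBasis 0 = !₂[1, 0] := by
    ext i; fin_cases i <;> simp
  have e1 : (EuclideanSpace.basisFun (Fin 2) ℝ).toBasis 1 = !₂[0, 1] := by
    ext i; fin_cases i <;> simp
  rw [← LinearMap.det_toMatrix (EuclideanSpace.basisFun (Fin 2) ℝ).toBasis, Matrix.det_fin_two]
  simp only [LinearMap.toMatrix_apply, e0, e1]
  rfl

/-- concentration at a nondegenerate zero -/
lemma conc_plane {G : E2 → E3} {k : E2 → ℝ} {L : E2 →L[ℝ] E3} {R₀ : ℝ} (hR₀ : 0 < R₀)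
    (hG : ContinuousOn G (ball 0 R₀)) (hk : ContinuousOn k (ball 0 R₀)) (h0 : G 0 = 0)
    (hL : HasFDerivAt G L 0) (hi : Function.Injective L) :
    ∃ R, 0 < R ∧ R ≤ R₀ ∧ Tendsto (fun ε : ℝ => ∫ ξ in ball (0 : E2) R,
      k ξ * (ε ^ 2 / (‖G ξ‖ ^ 2 + ε ^ 2) ^ 2)) (𝓝[>] 0)
      (𝓝 (k 0 * ∫ y : E2, ((‖L y‖ ^ 2 + 1) ^ 2)⁻¹)) := by
  obtain ⟨K, hK0, hK⟩ := LinearMap.exists_antilipschitzWith L.toLinearMap (LinearMap.ker_eq_bot.2 hi)
  have hK0' : (0 : ℝ) < K := hK0
  set c : ℝ := (2 * (K : ℝ))⁻¹ with hc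
  have hc0 : 0 < c := by positivity
  have k0 : ContinuousAt k 0 := hk.continuousAt (ball_mem_nhds _ hR₀)
  have e1 : ∀ᶠ ξ in 𝓝 (0 : E2), c * ‖ξ‖ ≤ ‖G ξ‖ := by
    filter_upwards [(hL.isLittleO.def hc0)] with ξ hξ
    have a1 : ‖ξ‖ ≤ K * ‖L ξ‖ := by simpa using hK.le_mul_dist ξ 0
    have a2 : 2 * c * ‖ξ‖ ≤ ‖L ξ‖ := by
      have : 2 * c * K = 1 := by rw [hc]; field_simp
      calc 2 * c * ‖ξ‖ ≤ 2 * c * (K * ‖L ξ‖) := by gcongr
        _ = ‖L ξ‖ := by rw [← mul_assoc, this, one_mul]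
    rw [h0, sub_zero, sub_zero] at hξ
    have a3 := norm_sub_norm_le (L ξ) (G ξ)
    rw [norm_sub_rev] at a3
    linarith
  have e2 : ∀ᶠ ξ in 𝓝 (0 : E2), |k ξ| ≤ |k 0| + 1 :=
    k0.abs.tendsto.eventually (ge_mem_nhds (lt_add_one _))
  obtain ⟨R₁, hR₁, hb⟩ := Metric.mem_nhds_iff.1 (e1.and e2)
  refine ⟨min R₁ R₀, lt_min hR₁ hR₀, min_le_right _ _, ?_⟩
  set B := ball (0 : E2) (min R₁ R₀) with hB
  have B0 : B ⊆ ball 0 R₀ := ball_subset_ball (min_le_right _ _)
  have B1 : B ⊆ ball 0 R₁ := ball_subset_ball (min_le_left _ _)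
  have hBn : B ∈ 𝓝 (0 : E2) := ball_mem_nhds _ (lt_min hR₁ hR₀)
  set F : ℝ → E2 → ℝ := fun ε ζ => ((fun ζ => ε • ζ) ⁻¹' B).indicator
    (fun ζ => k (ε • ζ) * ((‖ε⁻¹ • G (ε • ζ)‖ ^ 2 + 1) ^ 2)⁻¹) ζ with hF
  have key : ∀ ε : ℝ, 0 < ε → ∫ ζ, F ε ζ
      = ∫ ξ in B, k ξ * (ε ^ 2 / (‖G ξ‖ ^ 2 + ε ^ 2) ^ 2) := by
    intro ε hε
    have a1 := Measure.integral_comp_smul (volume : Measure E2)
      (B.indicator fun ξ => k ξ * ((‖ε⁻¹ • G ξ‖ ^ 2 + 1) ^ 2)⁻¹) ε
    refine Eq.trans (show _ = _ from a1) ?_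
    rw [integral_indicator measurableSet_ball, ← integral_smul]
    refine integral_congr_ae (Eventually.of_forall fun ξ => ?_)
    simp only [finrank_euclideanSpace, Fintype.card_fin, smul_eq_mul, norm_smul, norm_inv,
      Real.norm_eq_abs, abs_of_pos hε, abs_of_pos (show 0 < (ε ^ 2)⁻¹ by positivity)]
    field_simp
  rw [← integral_const_mul]
  refine Tendsto.congr' (eventually_mem_nhdsWithin.mono fun ε hε => key ε hε) ?_
  refine tendsto_integral_filter_of_dominated_convergence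
    (fun ζ => (|k 0| + 1) * ((‖c • ζ‖ ^ 2 + 1) ^ 2)⁻¹) (Eventually.of_forall fun ε => ?_)
    (eventually_mem_nhdsWithin.mono fun ε hε => Eventually.of_forall fun ζ => ?_)
    ((integrable_bubble hc0.ne').const_mul _) (Eventually.of_forall fun ζ => ?_)
  · have s1 : Continuous fun ζ : E2 => ε • ζ := continuous_const_smul ε
    have s2 : MeasurableSet ((fun ζ : E2 => ε • ζ) ⁻¹' B) := (isOpen_ball.preimage s1).measurableSet
    refine (aestronglyMeasurable_indicator_iff s2).2 (ContinuousOn.aestronglyMeasurable ?_ s2)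
    refine (hk.comp s1.continuousOn fun ζ hζ => B0 hζ).mul (ContinuousOn.inv₀ ?_ fun ζ _ => ?_)
    · exact (((((hG.comp s1.continuousOn fun ζ hζ => B0 hζ).const_smul ε⁻¹).norm.pow 2).add
        continuousOn_const).pow 2)
    · positivity
  · have hε' : 0 < ε := hε
    by_cases hζ : ζ ∈ (fun ζ => ε • ζ) ⁻¹' B
    · obtain ⟨b1, b2⟩ := hb (B1 hζ)
      have b3 : ‖c • ζ‖ ≤ ‖ε⁻¹ • G (ε • ζ)‖ := by
        rw [norm_smul, Real.norm_eq_abs, abs_of_pos hε'] at b1
        rw [norm_smul, norm_smul, Real.norm_of_nonneg hc0.le,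
          Real.norm_of_nonneg (inv_pos.2 hε').le, le_inv_mul_iff₀ hε']
        simp only at b1
        linarith
      simp only [hF, indicator_of_mem hζ, norm_mul, Real.norm_eq_abs]
      rw [abs_of_pos (a := (_ : ℝ)⁻¹) (by positivity)]
      gcongr
    · simp only [hF, indicator_of_notMem hζ, norm_zero]
      positivity
  · have t1 : Tendsto (fun ε : ℝ => ε • ζ) (𝓝[>] 0) (𝓝 0) := by
      have : Tendsto (fun ε : ℝ => ε • ζ) (𝓝 0) (𝓝 ((0 : ℝ) • ζ)) :=
        (continuous_id.smul continuous_const).tendsto 0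
      rw [zero_smul] at this
      exact this.mono_left nhdsWithin_le_nhds
    have t2 : Tendsto (fun ε : ℝ => ε⁻¹ • G (ε • ζ)) (𝓝[>] 0) (𝓝 (L ζ)) := by
      have := (hL.hasLineDerivAt ζ).tendsto_slope_zero_right
      simpa only [zero_add, h0, sub_zero] using this
    have t3 := (k0.tendsto.comp t1).mul ((((t2.norm.pow 2).add_const 1).pow 2).inv₀
      (by positivity))
    refine t3.congr' ?_
    filter_upwards [t1.eventually hBn] with ε hε
    simp only [hF, indicator_of_mem (show ζ ∈ (fun ζ => ε • ζ) ⁻¹' B from hε), Function.comp]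

end Vale.Agent.P218UE
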