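import Vale.Agent.P218UE.Static
import Vale.Agent.P218UY.Main
import Vale.Agent.P218UJ.L3

/-! The local Gauss-Bonnet estimate. -/

namespace Vale.Agent.P218UE

open Vale.Agent.P218UA

theorem lgbStatic (hC : Calc) (hG : Graph) : LGBStaticStmt :=
  lgbStatic_of hC l0 (l1 hC hG) P218UY.l2 (P218UJ.l3 hC)

theorem lgbFlow (hC : Calc) (hG : Graph) : LGBFlowStmt := lgbFlow_of hC (lgbStatic hC hG)

end Vale.Agent.P218UE
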