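import Vale.Agent.P218UE.L1
import Mathlib.MeasureTheory.Function.Jacobian

/-! Local Gauss-Bonnet estimate: Morse functions close to the squared distance. -/

open MeasureTheory Set Filter Topology Metric
open scoped NNReal RealInnerProductSpace ContDiff

namespace Vale.Agent.P218UE

open Vale.Agent.P218UA
open Vale.Agent.P218UL

variable {w : E3 → ℝ}

/-- half the squared distance -/
noncomputable def sq (z x : E3) : ℝ := ‖x - z‖ ^ 2 / 2

lemma smooth_sq (z : E3) : ContDiff ℝ ∞ (sq z) :=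
  ((contDiff_id.sub contDiff_const).norm_sq ℝ).div_const 2

lemma grad_sq (z : E3) : gradient (sq z) = fun x => x - z := by
  funext x
  refine ext_inner_right ℝ fun v => ?_
  have h1 : HasFDerivAt (sq z) _ x := (((hasFDerivAt_id x).sub_const z).norm_sq).mul_const (2⁻¹ : ℝ)
  rw [inner_grad, h1.fderiv]
  simp [inner_sub_left]

lemma hs_sq (z x : E3) : hs (sq z) x = ContinuousLinearMap.id ℝ E3 := by
  rw [hs, grad_sq]
  exact ((hasFDerivAt_id x).sub_const z).fderiv

/-- the focal points -/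
def focal (w : E3 → ℝ) (U : Set E3) : Set E3 :=
  {z | ∃ x ∈ U, w x = 0 ∧ gM w (sq z) x = 0 ∧ detM w (sq z) x = 0}

lemma focal_chart (hw : IsSurf w) {Q : E3 ≃ₗᵢ[ℝ] E3} {p : E3} {R h : ℝ} {u : E2 → ℝ}
    (hg : IsGraph {x | w x = 0} Q p R h u) (hu : ContDiffOn ℝ 1 u (ball 0 R)) :
    volume (focal w (cyl Q p R h)) = 0 := by
  set Ψ : E3 → E3 := fun y => par Q p u (prj y) + y 2 • gradient w (par Q p u (prj y)) with hΨ
  have hd : ∀ y, prj y ∈ ball (0 : E2) R → HasFDerivAt Ψ ((dpar Q u (prj y)).comp prj +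
      (y 2 • (hs w (par Q p u (prj y))).comp ((dpar Q u (prj y)).comp prj) +
        (EuclideanSpace.proj 2 : E3 →L[ℝ] ℝ).smulRight (gradient w (par Q p u (prj y))))) y := by
    intro y hy
    have h1 := (hasFDerivAt_par (Q := Q) (p := p) ((hu.contDiffAt
      (isOpen_ball.mem_nhds hy)).differentiableAt one_ne_zero)).comp y prj.hasFDerivAt
    exact h1.add ((EuclideanSpace.proj 2 : E3 →L[ℝ] ℝ).hasFDerivAt.smul
      ((hasFDerivAt_grad (surf2 hw _)).comp y h1))
  have h0 := addHaar_image_eq_zero_of_det_fderivWithin_eq_zero (volume : Measure E3) (f := Ψ)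
    (f' := fderiv ℝ Ψ) (s := {y | prj y ∈ ball (0 : E2) R ∧ (fderiv ℝ Ψ y).det = 0})
    (fun y hy => (hd y hy.1).differentiableAt.hasFDerivAt.hasFDerivWithinAt) fun y hy => hy.2
  refine measure_mono_null ?_ h0
  rintro z ⟨x, hx, hx0, hx1, hx2⟩
  obtain ⟨ξ, hξ, rfl⟩ : x ∈ par Q p u '' ball 0 R := by rw [image_par hg]; exact ⟨hx0, hx⟩
  set x := par Q p u ξ with hxdef
  set l := ⟪gradient w x, x - z⟫ with hl
  have e1 : x - z = l • gradient w x := by
    rw [gM, grad_sq] at hx1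
    exact sub_eq_zero.1 hx1
  refine ⟨!₂[ξ 0, ξ 1, -l], ⟨by rwa [prj_vec], ?_⟩, ?_⟩
  · obtain ⟨a, ha0, ha1, ha2⟩ := exists_d2_ker (norm_nu hw hx0) hx2
    rw [(hd _ (by rwa [prj_vec])).fderiv, prj_vec, ← hxdef]
    refine LinearMap.det_eq_zero_iff_ker_ne_bot.2 fun hk => ha0 ?_
    obtain ⟨v, hv⟩ := LinearMap.injective_iff_surjective.1 (LinearMap.ker_eq_bot.1 hk) a
    have t : ⟪gradient w x, dpar Q u ξ (prj v)⟫ = 0 :=
      inner_dpar (hw.smooth.differentiable (by simp) _)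
        ((hu.contDiffAt (isOpen_ball.mem_nhds hξ)).differentiableAt one_ne_zero)
        (by filter_upwards [isOpen_ball.mem_nhds hξ] with ζ hζ using (par_mem hg hζ).1) _
    have k := ha2 _ t
    rw [hM_apply, hs_sq, grad_sq, inner_sub_left, real_inner_smul_left, hs_symm (surf2 hw x),
      real_inner_comm (gradient w x), ← hl] at k
    rw [← inner_self_eq_zero (𝕜 := ℝ)]
    nth_rewrite 2 [← hv]
    simp only [ContinuousLinearMap.coe_coe, add_apply, smul_apply, ContinuousLinearMap.comp_apply,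
      ContinuousLinearMap.smulRight_apply, inner_add_right, real_inner_smul_right,
      real_inner_comm (gradient w x) a, ha1]
    simp only [ContinuousLinearMap.id_apply] at k
    simp
    linarith
  · simp only [hΨ, prj_vec, ← hxdef]
    rw [← sub_sub_cancel x z, e1]
    simp [sub_eq_add_neg]

lemma focal_null (hw : IsSurf w) (hK : IsCompact {x | w x = 0}) : volume (focal w univ) = 0 := by
  have h1 : ∀ p ∈ {x | w x = 0}, ∃ U ∈ 𝓝 p, volume (focal w U) = 0 := fun p hp => by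
    obtain ⟨Q, R, h, u, h1, h2, -, -, h5, h6, -⟩ := chart w hw p hp 1 one_pos
    exact ⟨_, (isOpen_cyl Q p R h).mem_nhds (mem_cyl Q p h1 h2), focal_chart hw h6 (h5.of_le one_le)⟩
  choose! U hU h0 using h1
  obtain ⟨T, hT, hcov⟩ := hK.elim_nhds_subcover U hU
  refine measure_mono_null (t := ⋃ p ∈ T, focal w (U p)) ?_
    ((measure_biUnion_null_iff T.countable_toSet).2 fun p hp => h0 p (hT p hp))
  rintro z ⟨x, -, hx⟩
  obtain ⟨p, hp, hxp⟩ := mem_iUnion₂.1 (hcov hx.1)
  exact mem_biUnion hp ⟨x, hxp, hx⟩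

lemma grad_add_smul {a b : E3 → ℝ} (ha : Differentiable ℝ a) (hb : Differentiable ℝ b) (τ : ℝ) :
    gradient (fun x => a x + τ * b x) = fun x => gradient a x + τ • gradient b x := by
  funext x
  refine ext_inner_right ℝ fun v => ?_
  rw [inner_grad, ((ha x).hasFDerivAt.fun_add ((hb x).hasFDerivAt.const_mul τ)).fderiv, inner_add_left,
    real_inner_smul_left, inner_grad, inner_grad]
  rfl

lemma hs_add_smul {a b : E3 → ℝ} (ha : ContDiff ℝ 2 a) (hb : ContDiff ℝ 2 b) (τ : ℝ) (x : E3) :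
    hs (fun x => a x + τ * b x) x = hs a x + τ • hs b x := by
  rw [hs, grad_add_smul (ha.differentiable two_ne_zero) (hb.differentiable two_ne_zero)]
  exact ((hasFDerivAt_grad ha.contDiffAt).add ((hasFDerivAt_grad hb.contDiffAt).const_smul τ)).fderiv

/-- a smooth function with prescribed constant values near finitely many points -/
lemma exists_steps (s : Finset E3) (k : E3 → ℝ) : ∃ (B : E3 → ℝ) (δ : ℝ), 0 < δ ∧
    ContDiff ℝ ∞ B ∧ ∀ p ∈ s, ∀ y ∈ ball p δ, B y = k p := by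
  obtain ⟨δ, hδ, hsep⟩ := exists_sep s
  let β : (p : E3) → ContDiffBump p := fun p => ⟨δ / 2, δ, half_pos hδ, half_lt_self hδ⟩
  refine ⟨fun y => ∑ p ∈ s, k p * β p y, δ / 2, half_pos hδ,
    ContDiff.sum fun p _ => contDiff_const.mul (β p).contDiff, fun p hp y hy => ?_⟩
  simp only
  rw [Finset.sum_eq_single_of_mem p hp, (β p).one_of_mem_closedBall (ball_subset_closedBall hy),
    mul_one]
  intro q hq hqp
  rw [(β q).zero_of_le_dist, mul_zero]
  have h1 := hsep q hq p hp hqp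
  have h2 := dist_triangle_left q p y
  rw [mem_ball] at hy
  change δ ≤ _
  linarith

lemma steps_grad {B : E3 → ℝ} {p y : E3} {δ c : ℝ} (h : ∀ y ∈ ball p δ, B y = c)
    (hy : y ∈ ball p δ) : gradient B y = 0 ∧ hs B y = 0 := by
  have h1 : ∀ y ∈ ball p δ, gradient B y = 0 := fun y hy => by
    have : B =ᶠ[𝓝 y] fun _ => c := eventually_of_mem (isOpen_ball.mem_nhds hy) h
    rw [this.gradient_eq, gradient_fun_const]
  have : gradient B =ᶠ[𝓝 y] fun _ => 0 := eventually_of_mem (isOpen_ball.mem_nhds hy) h1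
  exact ⟨h1 y hy, by rw [hs, this.fderiv_eq]; simp⟩

theorem l0 : L0Stmt := by
  intro w hw hK z ε hε
  obtain ⟨D, hD, hsub⟩ := hK.isBounded.subset_ball_lt 0 z
  have hδ : 0 < min 1 (ε / (2 * (D + 1))) := lt_min one_pos (by positivity)
  obtain ⟨z', hz'1, hz'2⟩ := (Measure.dense_of_ae (μ := (volume : Measure E3))
    (compl_mem_ae_iff.2 (focal_null hw hK))).exists_mem_open isOpen_ball
    (nonempty_ball.2 hδ : (ball z _).Nonempty)
  have hnd : ∀ x, w x = 0 → gM w (sq z') x = 0 → detM w (sq z') x ≠ 0 := fun x h1 h2 h3 =>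
    hz'1 ⟨x, mem_univ _, h1, h2, h3⟩
  have s2 : ContDiff ℝ 2 (sq z') := (smooth_sq z').of_le two_le
  have hfin := finite_crit hw hK s2 hnd
  set crit := hfin.toFinset with hcrit
  have hmem : ∀ x, x ∈ crit ↔ w x = 0 ∧ gM w (sq z') x = 0 := fun x => hfin.mem_toFinset
  obtain ⟨k, hk⟩ := Set.countable_iff_exists_injOn.1 crit.countable_toSet
  obtain ⟨B, δ, hδ0, hB, hBk⟩ := exists_steps crit fun p => (k p : ℝ)
  have B2 : ContDiff ℝ 2 B := hB.of_le two_le
  obtain ⟨C, hC⟩ := hK.exists_bound_of_continuousOn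
    (f := fun x => |B x| + ‖gradient B x‖ + ‖hs B x‖) ((hB.continuous.abs.add
      (smooth_grad hB).continuous.norm).add (continuous_hs B2).norm).continuousOn
  have hO : IsOpen (⋃ p ∈ crit, ball p δ) := isOpen_biUnion fun _ _ => isOpen_ball
  obtain ⟨c, hc, hcle⟩ : ∃ c > 0, ∀ x ∈ {x | w x = 0} \ ⋃ p ∈ crit, ball p δ,
      c ≤ ‖gM w (sq z') x‖ := by
    refine (hK.diff hO).exists_forall_le' (smooth_gM hw.smooth
      (smooth_sq z')).continuous.norm.continuousOn fun x hx => norm_pos_iff.2 fun h0 => ?_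
    exact hx.2 (mem_biUnion ((hmem x).2 ⟨hx.1, h0⟩) (mem_ball_self hδ0))
  have e1 : ∀ᶠ τ in 𝓝[≠] (0 : ℝ), |τ| * C < min c (min 1 (ε / 2)) := by
    have : Tendsto (fun τ : ℝ => |τ| * C) (𝓝 0) (𝓝 (|0| * C)) := tendsto_id.abs.mul_const C
    rw [abs_zero, zero_mul] at this
    exact (this.eventually (gt_mem_nhds (by positivity))).filter_mono nhdsWithin_le_nhds
  have e2 : ∀ᶠ τ in 𝓝[≠] (0 : ℝ), ∀ p ∈ crit, ∀ q ∈ crit,
      τ ≠ (sq z' q - sq z' p) / (k p - k q) := by
    simp only [eventually_all_finset]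
    exact fun p _ q _ => (eventually_cofinite_ne _).filter_mono (nhdsNE_le_cofinite _)
  obtain ⟨τ, hτ1, hτ2⟩ := (e1.and e2).exists
  have b : ∀ x, w x = 0 → |τ * B x| < min c (min 1 (ε / 2)) ∧
      ‖τ • gradient B x‖ < min c (min 1 (ε / 2)) ∧ ‖τ • hs B x‖ < min c (min 1 (ε / 2)) := by
    intro x hx
    have h1 := (le_abs_self _).trans (hC x hx)
    have h2 := abs_nonneg (B x)
    have h3 := norm_nonneg (gradient B x)
    have h4 := norm_nonneg (hs B x)
    simp only [abs_mul, norm_smul, Real.norm_eq_abs]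
    refine ⟨lt_of_le_of_lt ?_ hτ1, lt_of_le_of_lt ?_ hτ1, lt_of_le_of_lt ?_ hτ1⟩ <;>
      exact mul_le_mul_of_nonneg_left (by linarith) (abs_nonneg _)
  have g1 := grad_add_smul (s2.differentiable two_ne_zero) (B2.differentiable two_ne_zero) τ
  have g2 := hs_add_smul s2 B2 τ
  have g3 : ∀ x, gM w (fun x => sq z' x + τ * B x) x
      = gM w (sq z') x + gT (gradient w x) (τ • gradient B x) := fun x => by
    simp only [gM, g1, gT, inner_add_right, add_smul]
    abel
  have g4 : ∀ p ∈ crit, ∀ x ∈ ball p δ, gM w (fun x => sq z' x + τ * B x) x = gM w (sq z') x :=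
    fun p hp x hx => by rw [g3, (steps_grad (hBk p hp) hx).1]; simp [gT]
  refine ⟨fun x => sq z' x + τ * B x, crit, ⟨(smooth_sq z').add (contDiff_const.mul hB),
    fun x => ⟨fun hx => ?_, fun hx => ?_⟩, fun p hp => ?_, fun p hp q hq h => ?_⟩, fun x hx => ?_⟩
  · rw [g4 x hx x (mem_ball_self hδ0)]
    exact (hmem x).1 hx
  · by_cases h : x ∈ ⋃ p ∈ crit, ball p δ
    · obtain ⟨p, hp, hxp⟩ := mem_iUnion₂.1 h
      rw [g4 p hp x hxp] at hx
      exact (hmem x).2 hx
    · have h1 := hcle x ⟨hx.1, h⟩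
      have h2 := hx.2
      rw [g3, add_eq_zero_iff_eq_neg] at h2
      rw [h2, norm_neg] at h1
      linarith [norm_gT_le (norm_nu hw hx.1) (τ • gradient B x), (b x hx.1).2.1,
        min_le_left c (min 1 (ε / 2))]
  · have h1 := steps_grad (hBk p hp) (mem_ball_self hδ0)
    have h2 := hnd p ((hmem p).1 hp).1 ((hmem p).1 hp).2
    simp only [detM, hM, g1, g2, h1.1, h1.2, smul_zero, add_zero] at h2 ⊢
    rwa [show τ • (0 : E3 →L[ℝ] E3) = 0 by ext1; simp, add_zero]
  · by_contra hpq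
    have h1 : (k p : ℝ) - k q ≠ 0 := sub_ne_zero.2 fun h => hpq (hk hp hq (by exact_mod_cast h))
    refine hτ2 p hp q hq ?_
    simp only [hBk p hp p (mem_ball_self hδ0), hBk q hq q (mem_ball_self hδ0)] at h
    rw [eq_div_iff h1]
    linarith
  · obtain ⟨b1, b2, b3⟩ := b x hx
    have m1 : min c (min 1 (ε / 2)) ≤ 1 := (min_le_right _ _).trans (min_le_left _ _)
    have m2 : min c (min 1 (ε / 2)) ≤ ε / 2 := (min_le_right _ _).trans (min_le_right _ _)
    have d1 : ‖x - z‖ < D := by simpa [dist_eq_norm] using hsub hx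
    rw [mem_ball, dist_comm, dist_eq_norm, lt_min_iff, lt_div_iff₀ (by positivity)] at hz'2
    have d2 : x - z' = (x - z) + (z - z') := by abel
    have d3 := norm_nonneg (z - z')
    refine ⟨?_, ?_, ?_⟩
    · have h1 := abs_real_inner_le_norm (x - z) (z - z')
      have h2 : ‖x - z‖ * ‖z - z'‖ ≤ D * ‖z - z'‖ := by gcongr
      simp only [sq, d2, norm_add_sq_real]
      rw [abs_le] at h1 ⊢
      rw [abs_lt] at b1
      constructor <;> nlinarith
    · rw [g1, grad_sq]
      refine (norm_add_le _ _).trans ?_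
      have := norm_add_le (x - z) (z - z')
      simp only [d2]
      nlinarith
    · rw [g2, hs_sq]
      refine (norm_add_le _ _).trans ?_
      linarith [ContinuousLinearMap.norm_id_le (𝕜 := ℝ) (E := E3)]

end Vale.Agent.P218UE
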