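import Vale.Agent.P218UE.Conc

/-! Local Gauss-Bonnet estimate: the weighted Gauss-Bonnet-Poincaré-Hopf formula. -/

open MeasureTheory Set Filter Topology Metric
open scoped NNReal RealInnerProductSpace ContDiff

namespace Vale.Agent.P218UE

open Vale.Agent.P218UA
open Vale.Agent.P218UL
open Vale.Agent.P218.H63 (lap hessSq)

variable {w f : E3 → ℝ} {x p : E3}

lemma inner_gM (a : E3) : ⟪a, gM w f x⟫
    = ⟪a, gradient f x⟫ - ⟪gradient w x, gradient f x⟫ * ⟪a, gradient w x⟫ := by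
  rw [gM, gT, inner_sub_right, real_inner_smul_right]

lemma inner_nu_fderiv_gM (hw : IsSurf w) (hx : w x = 0) (hf : ContDiffAt ℝ 2 f x) (a : E3) :
    ⟪gradient w x, fderiv ℝ (gM w f) x a⟫ = -⟪hs w x a, gradient f x⟫ := by
  rw [fderiv_gM (surf2 hw x) hf, inner_sub_right, real_inner_smul_right, nu_nu hw hx, hM_apply,
    inner_sub_right, real_inner_smul_right, inner_nu_hs hw hx]
  ring

/-- concentration at a nondegenerate critical point -/
lemma conc_point (hG : Graph) (hw : IsSurf w) (hf : ContDiff ℝ 2 f) (hp : w p = 0)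
    (hg : gM w f p = 0) (hd : detM w f p ≠ 0) {k : E3 → ℝ} (hk : Continuous k) {δ : ℝ}
    (hδ : 0 < δ) : ∃ U, IsOpen U ∧ p ∈ U ∧ U ⊆ ball p δ ∧
      Tendsto (fun ε : ℝ => ∫ x in U, k x * (ε ^ 2 / (‖gM w f x‖ ^ 2 + ε ^ 2) ^ 2) ∂(ar w))
        (𝓝[>] 0) (𝓝 (k p * (Real.pi / |detM w f p|))) := by
  obtain ⟨e₁, e₂, F⟩ := exists_fr (norm_nu hw hp)
  obtain ⟨Q, hQ, hQ3⟩ := exists_iso F
  obtain ⟨R₀, h, u, hR₀, hh, hR₀δ, hhδ, hu, hgr, hu0, hg0, -⟩ :=
    chart_of_iso hw hp hQ3 (half_pos hδ)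
  have hu1 : ContDiffOn ℝ 1 u (ball 0 R₀) := hu.of_le one_le
  have hgM : ContDiff ℝ 1 (gM w f) := contDiff_gM (n := 1) (hw.smooth.of_le two_le) hf
  have pp : par Q p u 0 = p := by simp [par, pt_eq, hu0]
  have du : fderiv ℝ u 0 = 0 := by
    ext1 a
    rw [← inner_grad, hg0, inner_zero_left]; rfl
  have hdp : ∀ a, dpar Q u 0 a = a 0 • e₁ + a 1 • e₂ := fun a => by
    rw [dpar_apply, du, hQ]; simp
  have hL : HasFDerivAt (fun ξ => gM w f (par Q p u ξ))
      ((fderiv ℝ (gM w f) p).comp (dpar Q u 0)) 0 := by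
    have h1 := (hgM.differentiable one_ne_zero (par Q p u 0)).hasFDerivAt.comp (0 : E2)
      (hasFDerivAt_par ((hu1.contDiffAt (ball_mem_nhds _ hR₀)).differentiableAt one_ne_zero))
    rwa [pp] at h1
  set L := (fderiv ℝ (gM w f) p).comp (dpar Q u 0) with hLdef
  set T : E2 →L[ℝ] E2 := prj.comp ((Q.symm.toContinuousLinearEquiv : E3 →L[ℝ] E3).comp L) with hT
  have q1 : Q !₂[1, 0, 0] = e₁ := by simpa [lift_apply] using hQ !₂[1, 0]
  have q2 : Q !₂[0, 1, 0] = e₂ := by simpa [lift_apply] using hQ !₂[0, 1]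
  have T0 : ∀ a, T a 0 = ⟪e₁, L a⟫ := fun a => by
    rw [← q1, Q.inner_map_eq_flip]; simp [hT, prj_apply, inner3]
  have T1 : ∀ a, T a 1 = ⟪e₂, L a⟫ := fun a => by
    rw [← q2, Q.inner_map_eq_flip]; simp [hT, prj_apply, inner3]
  have L3 : ∀ a, ⟪gradient w p, L a⟫ = 0 := fun a => by
    have e : gradient f p = ⟪gradient w p, gradient f p⟫ • gradient w p := sub_eq_zero.1 hg
    rw [hLdef, ContinuousLinearMap.comp_apply, inner_nu_fderiv_gM hw hp hf.contDiffAt, e,
      real_inner_smul_right, inner_hs_nu hw hp]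
    simp
  have nT : ∀ a, ‖L a‖ ^ 2 = ‖T a‖ ^ 2 := fun a => by
    rw [F.normSq, L3, EuclideanSpace.real_norm_sq_eq, Fin.sum_univ_two, T0, T1]; ring
  have dT : LinearMap.det T.toLinearMap = detM w f p := by
    have a1 : L !₂[1, 0] = fderiv ℝ (gM w f) p e₁ := by simp [hLdef, hdp]
    have a2 : L !₂[0, 1] = fderiv ℝ (gM w f) p e₂ := by simp [hLdef, hdp]
    have a3 := fun a b hb => inner_fderiv_gM (surf2 hw p) (hf.contDiffAt (x := p)) a b hb
    rw [det_two, T0, T1, T0, T1, a1, a2, detM, F.d2_eq]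
    simp only [real_inner_comm _ e₁, real_inner_comm _ e₂, a3 _ _ F.o31, a3 _ _ F.o32]
  have hT0 : LinearMap.det T.toLinearMap ≠ 0 := dT ▸ hd
  have hi : Function.Injective L := by
    refine (injective_iff_map_eq_zero _).2 fun a ha => ?_
    have h1 := nT a
    rw [ha, norm_zero, eq_comm, sq_eq_sq₀ (norm_nonneg _) le_rfl, norm_eq_zero] at h1
    by_contra h0
    exact hT0 (LinearMap.det_eq_zero_iff_ker_ne_bot.2 ((Submodule.ne_bot_iff _).2 ⟨a, h1, h0⟩))
  obtain ⟨R, hR, hRR, hlim⟩ := conc_plane (k := fun ξ => k (par Q p u ξ)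
    * √(1 + ‖gradient u ξ‖ ^ 2)) hR₀ (hgM.continuous.comp_continuousOn (continuousOn_par hu1))
    ((hk.comp_continuousOn (continuousOn_par hu1)).mul (continuousOn_jac hu1))
    (by simp only [Function.comp, pp, hg]) hL hi
  refine ⟨cyl Q p R h, isOpen_cyl _ _ _ _, mem_cyl _ _ hR hh,
    (cyl_subset _ _ _ _).trans (ball_subset_ball (by linarith)), ?_⟩
  simp only [nT, integral_bubble_lin hT0, dT, pp, hg0, norm_zero] at hlim
  norm_num at hlim
  refine hlim.congr' (eventually_mem_nhdsWithin.mono fun ε (hε : 0 < ε) => ?_)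
  have hc : Continuous fun x => k x * (ε ^ 2 / (‖gM w f x‖ ^ 2 + ε ^ 2) ^ 2) :=
    hk.mul (continuous_const.div (((hgM.continuous.norm.pow 2).add continuous_const).pow 2)
      fun x => by positivity)
  simp only
  rw [integral_chart hG hw (IsGraph_mono hgr hRR) (hu1.mono (ball_subset_ball hRR))
    hc.aestronglyMeasurable]
  refine integral_congr_ae (Eventually.of_forall fun ξ => ?_)
  simp only
  ring

lemma exists_sep (s : Finset E3) : ∃ δ > 0, ∀ p ∈ s, ∀ q ∈ s, p ≠ q → 2 * δ ≤ dist p q := by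
  have h1 : ∀ᶠ δ in 𝓝[>] (0 : ℝ), ∀ p ∈ s, ∀ q ∈ s, p ≠ q → 2 * δ ≤ dist p q := by
    simp only [eventually_all_finset, eventually_imp_distrib_left]
    intro p _ q _ h
    have : Tendsto (fun δ : ℝ => 2 * δ) (𝓝 0) (𝓝 (2 * 0)) := tendsto_id.const_mul 2
    rw [mul_zero] at this
    exact (this.eventually (ge_mem_nhds (dist_pos.2 h))).filter_mono nhdsWithin_le_nhds
  obtain ⟨δ, h2, h3⟩ := (h1.and eventually_mem_nhdsWithin).exists
  exact ⟨δ, h3, h2⟩

/-- concentration at the critical points -/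
lemma conc_all (hC : Calc) (hG : Graph) (hw : IsSurf w) (hK : IsCompact {x | w x = 0})
    {crit : Finset E3} (hm : IsMorse w f crit) {k : E3 → ℝ} (hk : Continuous k) :
    Tendsto (fun ε : ℝ => ∫ x, k x * (ε ^ 2 / (‖gM w f x‖ ^ 2 + ε ^ 2) ^ 2) ∂(ar w))
      (𝓝[>] 0) (𝓝 (∑ p ∈ crit, k p * (Real.pi / |detM w f p|))) := by
  have hf : ContDiff ℝ 2 f := hm.smooth.of_le two_le
  have hgM : Continuous (gM w f) := (smooth_gM hw.smooth hm.smooth).continuous
  have := finite_ar hC hw hK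
  obtain ⟨δ, hδ, hsep⟩ := exists_sep crit
  have h1 := fun p (hp : p ∈ crit) => conc_point hG hw hf ((hm.mem p).1 hp).1 ((hm.mem p).1 hp).2
    (hm.nondeg p hp) hk hδ
  choose! U hU hpU hUb hlim using h1
  have hO : IsOpen (⋃ p ∈ crit, U p) := isOpen_biUnion hU
  have hdis : Set.Pairwise (crit : Set E3) (Function.onFun Disjoint U) := fun p hp q hq h =>
    (ball_disjoint_ball (by linarith [hsep p hp q hq h])).mono (hUb p hp) (hUb q hq)
  have hZ : IsCompact ({x | w x = 0} \ ⋃ p ∈ crit, U p) := hK.diff hO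
  obtain ⟨c, hc, hcle⟩ : ∃ c > 0, ∀ x ∈ {x | w x = 0} \ ⋃ p ∈ crit, U p, c ≤ ‖gM w f x‖ := by
    refine hZ.exists_forall_le' hgM.norm.continuousOn fun x hx => norm_pos_iff.2 fun h0 => ?_
    have := (hm.mem x).2 ⟨hx.1, h0⟩
    exact hx.2 (mem_biUnion this (hpU x this))
  have h2 : Tendsto (fun ε : ℝ => ∫ x in (⋃ p ∈ crit, U p)ᶜ,
      k x * (ε ^ 2 / (‖gM w f x‖ ^ 2 + ε ^ 2) ^ 2) ∂(ar w)) (𝓝[>] 0) (𝓝 0) := by
    have t : Tendsto (fun ε : ℝ => ε ^ 2 / c ^ 4 * ∫ x in (⋃ p ∈ crit, U p)ᶜ, |k x| ∂(ar w))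
        (𝓝[>] 0) (𝓝 (0 ^ 2 / c ^ 4 * ∫ x in (⋃ p ∈ crit, U p)ᶜ, |k x| ∂(ar w))) :=
      (((tendsto_id.pow 2).div_const _).mul_const _).mono_left nhdsWithin_le_nhds
    rw [zero_pow two_ne_zero, zero_div, zero_mul] at t
    refine squeeze_zero_norm (fun ε => ?_) t
    rw [← integral_const_mul]
    refine norm_integral_le_of_norm_le
      (((integrable_ar hC hw hK hk.abs.continuousOn).const_mul _).integrableOn) ?_
    filter_upwards [ae_restrict_mem hO.measurableSet.compl, ae_restrict_of_ae (ae_zero hw)]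
      with x h1 h2
    have h3 := hcle x ⟨h2, h1⟩
    rw [norm_mul, mul_comm, Real.norm_eq_abs, Real.norm_eq_abs, abs_of_nonneg (by positivity)]
    have h4 : c ^ 4 ≤ (‖gM w f x‖ ^ 2 + ε ^ 2) ^ 2 :=
      calc c ^ 4 = (c ^ 2 + 0) ^ 2 := by ring
        _ ≤ _ := by gcongr; positivity
    gcongr
  have h3 := (tendsto_finset_sum crit hlim).add h2
  rw [add_zero] at h3
  refine h3.congr' (eventually_mem_nhdsWithin.mono fun ε (hε : 0 < ε) => ?_)
  have hi : Integrable (fun x => k x * (ε ^ 2 / (‖gM w f x‖ ^ 2 + ε ^ 2) ^ 2)) (ar w) :=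
    integrable_ar hC hw hK (hk.mul (continuous_const.div
      (((hgM.norm.pow 2).add continuous_const).pow 2) fun x =>
        show (‖gM w f x‖ ^ 2 + ε ^ 2) ^ 2 ≠ 0 by positivity)).continuousOn
  simp only
  rw [← integral_biUnion_finset crit (fun p hp => (hU p hp).measurableSet) hdis
    (fun p _ => hi.integrableOn), integral_add_compl hO.measurableSet hi]

/-- the bracket of two vector valued functions -/
noncomputable def brV (w : E3 → ℝ) (U V : E3 → E3) (x : E3) : ℝ :=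
  ∑ i, br w (fun y => U y i) (fun y => V y i) x

lemma fderiv_coord {U : E3 → E3} (hU : DifferentiableAt ℝ U x) (i : Fin 3) (v : E3) :
    fderiv ℝ (fun y => U y i) x v = fderiv ℝ U x v i := by
  have := (EuclideanSpace.proj i : E3 →L[ℝ] ℝ).hasFDerivAt.comp x hU.hasFDerivAt
  exact congrArg (fun L : E3 →L[ℝ] ℝ => L v) this.fderiv

lemma brV_eq {e₁ e₂ : E3} (h : Fr (gradient w x) e₁ e₂) {U V : E3 → E3}
    (hU : DifferentiableAt ℝ U x) (hV : DifferentiableAt ℝ V x) : brV w U V x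
      = ⟪fderiv ℝ U x e₁, fderiv ℝ V x e₂⟫ - ⟪fderiv ℝ U x e₂, fderiv ℝ V x e₁⟫ := by
  simp only [brV, br_eq h, fderiv_coord hU, fderiv_coord hV, Fin.sum_univ_three, inner3]
  ring

lemma continuous_br {a b : E3 → ℝ} (hw : ContDiff ℝ 1 w) (ha : ContDiff ℝ 1 a)
    (hb : ContDiff ℝ 1 b) : Continuous (br w a b) :=
  Continuous.inner (𝕜 := ℝ) (contDiff_grad (m := 0) hw (by simp)).continuous
    (continuous_cr (contDiff_grad (m := 0) ha (by simp)).continuous
      (contDiff_grad (m := 0) hb (by simp)).continuous)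

theorem stokesV (hC : Calc) (hw : IsSurf w) (hK : IsCompact {x | w x = 0}) {U V : E3 → E3}
    (hU : ContDiff ℝ 1 U) (hV : ContDiff ℝ 2 V) : ∫ x, brV w U V x ∂(ar w) = 0 := by
  have h1 : ∀ i, ContDiff ℝ 1 fun y => U y i := fun i =>
    (EuclideanSpace.proj i : E3 →L[ℝ] ℝ).contDiff.comp hU
  have h2 : ∀ i, ContDiff ℝ 2 fun y => V y i := fun i =>
    (EuclideanSpace.proj i : E3 →L[ℝ] ℝ).contDiff.comp hV
  unfold brV
  rw [integral_finset_sum _ fun i _ => integrable_ar hC hw hK (continuous_br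
    (hw.smooth.of_le one_le) (h1 i) ((h2 i).of_le (by norm_num))).continuousOn]
  exact Finset.sum_eq_zero fun i _ => stokes hC hw hK (h1 i) (h2 i)

/-- the rotated gradient -/
noncomputable def XX (w f : E3 → ℝ) (x : E3) : E3 := cr (gradient w x) (gradient f x)

lemma norm_XX (hw : IsSurf w) (hx : w x = 0) : ‖XX w f x‖ ^ 2 = ‖gM w f x‖ ^ 2 := by
  rw [XX, normSq_cr, gM, normSq_gT (norm_nu hw hx), norm_nu hw hx]; ring

/-- the pointwise identity -/
lemma brV_key (hw : IsSurf w) (hx : w x = 0) (hf : ContDiff ℝ ∞ f) {φ : ℝ → ℝ}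
    (hφ : ContDiff ℝ 1 φ) {e : ℝ} (he : 0 < e) :
    brV w (fun y => (φ (f y) / (‖gM w f y‖ ^ 2 + e)) • gM w f y) (XX w f) x
      = φ (f x) * KK w x * (‖gM w f x‖ ^ 2 / (‖gM w f x‖ ^ 2 + e))
        - 2 * φ (f x) * detM w f x * (e / (‖gM w f x‖ ^ 2 + e) ^ 2)
        - deriv φ (f x) * (⟪hM w f x (XX w f x), XX w f x⟫ / (‖gM w f x‖ ^ 2 + e)) := by
  obtain ⟨e₁, e₂, F⟩ := exists_fr (norm_nu hw hx)
  have hf2 : ContDiffAt ℝ 2 f x := (hf.of_le two_le).contDiffAt
  have hq : ‖gM w f x‖ ^ 2 + e ≠ 0 := by positivity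
  have d1 := ((smooth_gM hw.smooth hf).differentiable (by simp) x).hasFDerivAt
  have d2 := ((hφ.differentiable one_ne_zero (f x)).hasDerivAt.comp_hasFDerivAt x
    (hf.differentiable (by simp) x).hasFDerivAt)
  have d3 := (d1.norm_sq.add_const e)
  have d4 := (d2.mul ((hasDerivAt_inv hq).comp_hasFDerivAt x d3)).smul d1
  have d5 : HasFDerivAt (fun y => (φ (f y) / (‖gM w f y‖ ^ 2 + e)) • gM w f y) _ x := d4
  have n1 := (hasFDerivAt_grad (surf2 hw x)).differentiableAt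
  have n2 := (hasFDerivAt_grad hf2).differentiableAt
  have d6 : DifferentiableAt ℝ (XX w f) x :=
    (hasFDerivAt_cr n1.hasFDerivAt n2.hasFDerivAt).differentiableAt
  have d7 : ∀ v, fderiv ℝ (XX w f) x v
      = cr (hs w x v) (gradient f x) + cr (gradient w x) (hs f x v) := fderiv_cr n1 n2
  have s1 : ⟪e₂, hs w x e₁⟫ = ⟪e₁, hs w x e₂⟫ := by rw [← hs_symm (surf2 hw x), real_inner_comm]
  have s2 : ⟪e₂, hs f x e₁⟫ = ⟪e₁, hs f x e₂⟫ := by rw [← hs_symm hf2, real_inner_comm]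
  have g1 : ⟪e₁, gM w f x⟫ = ⟪e₁, gradient f x⟫ := by rw [inner_gM, F.o13]; ring
  have g2 : ⟪e₂, gM w f x⟫ = ⟪e₂, gradient f x⟫ := by rw [inner_gM, F.o23]; ring
  have g3 : ⟪gradient w x, gM w f x⟫ = 0 := by rw [inner_gM, F.i33]; ring
  have m1 : ∀ v, ⟪e₁, fderiv ℝ (gM w f) x v⟫ = ⟪e₁, hM w f x v⟫ := fun v => by
    rw [real_inner_comm, inner_fderiv_gM (surf2 hw x) hf2 _ _ F.o31, real_inner_comm]
  have m2 : ∀ v, ⟪e₂, fderiv ℝ (gM w f) x v⟫ = ⟪e₂, hM w f x v⟫ := fun v => by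
    rw [real_inner_comm, inner_fderiv_gM (surf2 hw x) hf2 _ _ F.o32, real_inner_comm]
  have xx : XX w f x = (-⟪e₂, gradient f x⟫) • e₁ + ⟪e₁, gradient f x⟫ • e₂ := by
    conv_lhs => rw [F.expand (XX w f x)]
    simp only [XX, F.c1, F.c2, F.c3, F.o13, F.o23, F.i33]
    simp
  have df : ∀ v, fderiv ℝ f x v = ⟪v, gradient f x⟫ := fun v => by
    rw [← inner_grad, real_inner_comm]
  rw [brV_eq F d5.differentiableAt d6, d5.fderiv, KK_eq hw hx, detM, F.d2_eq, F.d2_eq, xx]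
  simp only [add_apply, smul_apply, ContinuousLinearMap.smulRight_apply,
    ContinuousLinearMap.comp_apply, innerSL_apply_apply, smul_eq_mul, Function.comp,
    Pi.mul_apply, inner_add_left, real_inner_smul_left, nsmul_eq_mul, df]
  simp only [F.inner_eq (gM w f x), F.inner_eq (fderiv ℝ (gM w f) x _), g1, g2, g3, m1, m2,
    inner_nu_fderiv_gM hw hx hf2, F.inner_eq (hs w x _), F.inner_eq (hM w f x _)]
  simp only [d7, inner_add_right, F.c1, F.c2, F.c3, F.o13, F.o23, F.o31, F.o32, F.i33, F.i11,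
    F.i22, F.o12, F.o21, inner_nu_hs hw hx, map_add, map_smul, real_inner_smul_right, hM_apply,
    inner_sub_right, s1, s2, real_inner_comm (gradient w x) (gradient f x)]
  have nq := F.normSq (gM w f x)
  rw [g1, g2, g3] at nq
  have he' : e = (‖gM w f x‖ ^ 2 + e) - ⟪e₁, gradient f x⟫ ^ 2 - ⟪e₂, gradient f x⟫ ^ 2 := by
    rw [nq]; ring
  generalize ‖gM w f x‖ ^ 2 + e = Q at hq he' ⊢
  rw [nq, he']
  field_simp
  ring

lemma ar_finite_null {s : Set E3} (hs : s.Finite) : ar w s = 0 := by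
  have := Measure.nullSingletonClass_hausdorff E3 (d := ((2 : ℕ) : ℝ)) (by norm_num)
  refine le_antisymm ((Measure.restrict_le_self s).trans (le_of_eq ?_)) zero_le
  rw [Measure.euclideanHausdorffMeasure_def, Measure.smul_apply, hs.measure_zero, smul_zero]

theorem l1 (hC : Calc) (hG : Graph) : L1Stmt := by
  refine ⟨1, zero_le_one, fun w hw hK f crit hm φ hφ => ?_⟩
  have hw2 : ContDiff ℝ 2 w := hw.smooth.of_le two_le
  have hf2 : ContDiff ℝ 2 f := hm.smooth.of_le two_le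
  have hg := smooth_gM hw.smooth hm.smooth
  have hX : ContDiff ℝ ∞ (XX w f) := contDiff_cr (smooth_grad hw.smooth) (smooth_grad hm.smooth)
  have c1 : Continuous fun x => φ (f x) := hφ.continuous.comp hf2.continuous
  have c2 : Continuous fun x => deriv φ (f x) :=
    (hφ.continuous_deriv le_rfl).comp hf2.continuous
  have c3 : Continuous fun x => φ (f x) * KK w x := c1.mul (continuous_KK hw2)
  have c4 : Continuous fun x => 2 * φ (f x) * detM w f x :=
    (continuous_const.mul c1).mul (continuous_detM hw2 hf2)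
  have c5 : ∀ e : ℝ, Continuous fun x => ‖gM w f x‖ ^ 2 + e := fun e =>
    (hg.continuous.norm.pow 2).add continuous_const
  have t1 : Tendsto (fun ε : ℝ => ∫ x, φ (f x) * KK w x
      * (‖gM w f x‖ ^ 2 / (‖gM w f x‖ ^ 2 + ε ^ 2)) ∂(ar w)) (𝓝[>] 0)
      (𝓝 (∫ x, φ (f x) * KK w x ∂(ar w))) := by
    refine tendsto_integral_filter_of_dominated_convergence (fun x => |φ (f x) * KK w x|)
      (eventually_mem_nhdsWithin.mono fun ε (hε : 0 < ε) => (c3.mul ((hg.continuous.norm.pow 2).div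
        (c5 _) fun x => by positivity)).aestronglyMeasurable)
      (eventually_mem_nhdsWithin.mono fun ε (hε : 0 < ε) => Eventually.of_forall fun x => ?_)
      (integrable_ar hC hw hK c3.abs.continuousOn) ?_
    · rw [norm_mul, Real.norm_eq_abs]
      refine mul_le_of_le_one_right (abs_nonneg _) ?_
      rw [Real.norm_of_nonneg (by positivity), div_le_one (by positivity)]
      nlinarith
    · filter_upwards [ae_zero hw, compl_mem_ae_iff.2 (ar_finite_null crit.finite_toSet)]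
        with x h1 h2
      have h3 : ‖gM w f x‖ ^ 2 + 0 ^ 2 ≠ 0 := by
        have : gM w f x ≠ 0 := fun h => h2 ((hm.mem x).2 ⟨h1, h⟩)
        simpa using this
      have h4 : Tendsto (fun ε : ℝ => φ (f x) * KK w x
          * (‖gM w f x‖ ^ 2 / (‖gM w f x‖ ^ 2 + ε ^ 2))) (𝓝 0) (𝓝 (φ (f x) * KK w x
          * (‖gM w f x‖ ^ 2 / (‖gM w f x‖ ^ 2 + 0 ^ 2)))) :=
        (tendsto_const_nhds.div ((tendsto_id.pow 2).const_add _) h3).const_mul _
      rw [zero_pow two_ne_zero, add_zero] at h3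
      rw [zero_pow two_ne_zero, add_zero, div_self h3, mul_one] at h4
      exact h4.mono_left nhdsWithin_le_nhds
  have t2 := conc_all hC hG hw hK hm c4
  have e1 : ∑ p ∈ crit, 2 * φ (f p) * detM w f p * (Real.pi / |detM w f p|)
      = 2 * Real.pi * ∑ p ∈ crit, φ (f p) * ind w f p := by
    rw [Finset.mul_sum]
    refine Finset.sum_congr rfl fun p hp => ?_
    have h0 := hm.nondeg p hp
    rcases lt_or_gt_of_ne h0 with h | h
    · rw [ind, Real.sign_of_neg h, abs_of_neg h]; field_simp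
    · rw [ind, Real.sign_of_pos h, abs_of_pos h]; field_simp
  rw [e1] at t2
  refine le_of_tendsto (t1.sub t2).abs (eventually_mem_nhdsWithin.mono fun ε (hε : 0 < ε) => ?_)
  have he : 0 < ε ^ 2 := by positivity
  have q0 : ∀ x, ‖gM w f x‖ ^ 2 + ε ^ 2 ≠ 0 := fun x => by positivity
  have s := stokesV hC hw hK (U := fun y => (φ (f y) / (‖gM w f y‖ ^ 2 + ε ^ 2)) • gM w f y)
    (((hφ.comp (hm.smooth.of_le one_le)).div (((hg.of_le one_le).norm_sq ℝ).add contDiff_const)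
      q0).smul (hg.of_le one_le)) (hX.of_le two_le)
  have i1 := integrable_ar hC hw hK (c3.mul ((hg.continuous.norm.pow 2).div (c5 _) q0)).continuousOn
  have i2 := integrable_ar hC hw hK (c4.mul ((continuous_const (y := ε ^ 2)).div ((c5 _).pow 2)
    fun x => pow_ne_zero 2 (q0 x))).continuousOn
  have i3 := integrable_ar hC hw hK (c2.mul ((Continuous.inner (𝕜 := ℝ)
    ((continuous_hM hw2 hf2).clm_apply hX.continuous) hX.continuous).div (c5 _) q0)).continuousOn
  rw [integral_congr_ae ((ae_zero hw).mono fun x hx => brV_key hw hx hm.smooth hφ he)] at s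
  have s1 := integral_sub (i1.sub i2) i3
  have s2 := integral_sub i1 i2
  simp only [Pi.mul_apply, Pi.div_apply, Pi.pow_apply, Pi.sub_apply] at s1 s2
  rw [s1, s2, sub_eq_zero] at s
  rw [s, one_mul, ← Real.norm_eq_abs]
  refine norm_integral_le_of_norm_le (integrable_ar hC hw hK
    (c2.abs.mul (continuous_GG hw2 hf2)).continuousOn) ((ae_zero hw).mono fun x hx => ?_)
  rw [norm_mul, Real.norm_eq_abs, norm_div, Real.norm_of_nonneg (r := _ + _) (by positivity)]
  refine mul_le_mul_of_nonneg_left ?_ (abs_nonneg _)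
  rw [div_le_iff₀ (by positivity)]
  calc ‖⟪hM w f x (XX w f x), XX w f x⟫‖ ≤ ‖hM w f x‖ * ‖XX w f x‖ * ‖XX w f x‖ :=
        (norm_inner_le_norm _ _).trans (by gcongr; exact (hM w f x).le_opNorm _)
    _ = ‖hM w f x‖ * ‖gM w f x‖ ^ 2 := by rw [← norm_XX hw hx]; ring
    _ ≤ _ := by
        have := norm_hM_le (f := f) hw hx
        have := GG_nonneg (w := w) (f := f) (x := x)
        gcongr
        linarith

end Vale.Agent.P218UE
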