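import Vale.Agent.P218UA.Props
import Vale.Agent.P218UL.Alg

/-! Local Gauss-Bonnet estimate: definitions and the interfaces `L0`-`L3`. -/

open MeasureTheory Set Filter Topology Metric
open scoped ENNReal NNReal RealInnerProductSpace ContDiff

namespace Vale.Agent.P218UE

open Vale.Agent.P218UA
open Vale.Agent.P218UL (d2)
open Vale.Agent.P218.H63 (lap hessSq)

/-- the tangential gradient of `f` along `{w = 0}` -/
noncomputable def gM (w f : E3 → ℝ) (x : E3) : E3 := gT (gradient w x) (gradient f x)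

/-- on tangent vectors, `⟪hM w f x a, b⟫` is the Hessian of `f` on the surface `{w = 0}` -/
noncomputable def hM (w f : E3 → ℝ) (x : E3) : E3 →L[ℝ] E3 :=
  hs f x - ⟪gradient f x, gradient w x⟫ • hs w x

/-- the determinant of the Hessian of `f` on the surface -/
noncomputable def detM (w f : E3 → ℝ) (x : E3) : ℝ := d2 (gradient w x) (hM w f x)

/-- the index `± 1` of a nondegenerate critical point -/
noncomputable def ind (w f : E3 → ℝ) (p : E3) : ℝ := Real.sign (detM w f p)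

/-- a bound for the Hessian of `f` on the surface and for the curvature of the level curves times
the length of the tangential gradient -/
noncomputable def GG (w f : E3 → ℝ) (x : E3) : ℝ := ‖hs f x‖ + ‖gradient f x‖ * ‖hs w x‖

/-- the Gauss curvature -/
noncomputable def KK (w : E3 → ℝ) (x : E3) : ℝ := (lap w x ^ 2 - hessSq w x) / 2

/-- `f` is a Morse function on `{w = 0}` with distinct critical values -/
structure IsMorse (w f : E3 → ℝ) (crit : Finset E3) : Prop where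
  smooth : ContDiff ℝ ∞ f
  mem : ∀ x, x ∈ crit ↔ w x = 0 ∧ gM w f x = 0
  nondeg : ∀ p ∈ crit, detM w f p ≠ 0
  inj : InjOn f (crit : Set E3)

/-- the part of the surface between two levels -/
def strip (w f : E3 → ℝ) (t₁ t₂ : ℝ) : Set E3 := {x | w x = 0 ∧ t₁ < f x ∧ f x < t₂}

/-- `V` is relatively open and closed in the strip and meets every level -/
structure Piece (w f : E3 → ℝ) (t₁ t₂ : ℝ) (V : Set E3) : Prop where
  opn : ∃ O, IsOpen O ∧ V = O ∩ strip w f t₁ t₂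
  cls : ∃ Z, IsClosed Z ∧ V = Z ∩ strip w f t₁ t₂
  onto : ∀ t ∈ Ioo t₁ t₂, ∃ x ∈ V, f x = t

/-- a smooth graph chart over the tangent plane -/
def ChartStmt : Prop :=
  ∀ w, IsSurf w → ∀ x₀, w x₀ = 0 → ∀ η > 0, ∃ (Q : E3 ≃ₗᵢ[ℝ] E3) (R h : ℝ) (u : E2 → ℝ),
    0 < R ∧ 0 < h ∧ R < η ∧ h < η ∧ ContDiffOn ℝ ∞ u (ball 0 R) ∧
    IsGraph {x | w x = 0} Q x₀ R h u ∧ u 0 = 0 ∧ gradient u 0 = 0 ∧
    Q !₂[0, 0, 1] = gradient w x₀ ∧ ∀ ξ ∈ ball (0 : E2) R, ‖gradient u ξ‖ ≤ η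

/-- [L0] Morse functions close to the squared distance -/
def L0Stmt : Prop :=
  ∀ w, IsSurf w → IsCompact {x | w x = 0} → ∀ (z : E3) (ε : ℝ), 0 < ε →
    ∃ (f : E3 → ℝ) (crit : Finset E3), IsMorse w f crit ∧ ∀ x, w x = 0 →
      |f x - ‖x - z‖ ^ 2 / 2| ≤ ε ∧ ‖gradient f x‖ ≤ ‖x - z‖ + ε ∧ ‖hs f x‖ ≤ 2

/-- [L1] the weighted Gauss-Bonnet-Poincaré-Hopf formula -/
def L1Stmt : Prop :=
  ∃ C : ℝ, 0 ≤ C ∧ ∀ w, IsSurf w → IsCompact {x | w x = 0} → ∀ f crit, IsMorse w f crit →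
    ∀ φ : ℝ → ℝ, ContDiff ℝ 1 φ →
      |∫ x, φ (f x) * KK w x ∂(ar w) - 2 * Real.pi * ∑ p ∈ crit, φ (f p) * ind w f p|
        ≤ C * ∫ x, |deriv φ (f x)| * GG w f x ∂(ar w)

/-- [L2] the Euler characteristic of a superlevel set is at most the number of level curves -/
def L2Stmt : Prop :=
  ∀ w, IsSurf w → IsCompact {x | w x = 0} → IsPreconnected {x | w x = 0} →
    ∀ f crit, IsMorse w f crit → ∀ t₁ t₂ : ℝ, t₁ < t₂ → (∀ p ∈ crit, f p ∉ Ioo t₁ t₂) →
    (∃ x, w x = 0 ∧ f x ≤ t₁) → ∃ (n : ℕ) (V : Fin n → Set E3),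
      Pairwise (Function.onFun Disjoint V) ∧ (∀ i, Piece w f t₁ t₂ (V i)) ∧
      ∑ p ∈ crit.filter (fun p => t₁ < f p), ind w f p ≤ n

/-- [L3] every family of closed level curves has a definite amount of curvature -/
def L3Stmt : Prop :=
  ∃ c : ℝ, 0 < c ∧ ∀ w, IsSurf w → IsCompact {x | w x = 0} → ∀ f : E3 → ℝ, ContDiff ℝ ∞ f →
    ∀ t₁ t₂ : ℝ, t₁ < t₂ → (∀ x ∈ strip w f t₁ t₂, gM w f x ≠ 0) → ∀ V, Piece w f t₁ t₂ V →
    ∀ θ : ℝ → ℝ, Continuous θ → (∀ t, 0 ≤ θ t) →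
      c * ∫ t in t₁..t₂, θ t ≤ ∫ x in V, θ (f x) * GG w f x ∂(ar w)

end Vale.Agent.P218UE
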