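import Vale.Agent.P218UE.L0
import Vale.Agent.P218UG.FlowB

/-! Local Gauss-Bonnet estimate: assembly. -/

open MeasureTheory Set Filter Topology Metric
open scoped NNReal RealInnerProductSpace ContDiff

namespace Vale.Agent.P218UE

open Vale.Agent.P218UA
open Vale.Agent.P218UL
open Vale.Agent.P218.H63 (lap hessSq)

variable {w f : E3 → ℝ} {crit : Finset E3}

lemma ii_ind {g : ℝ → ℝ} (hg : Continuous g) (s a b : ℝ) :
    IntervalIntegrable (indicator {x | x ≤ s} g) volume a b :=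
  ⟨hg.integrableOn_Ioc.indicator measurableSet_Iic, hg.integrableOn_Ioc.indicator measurableSet_Iic⟩

lemma layer {φ : ℝ → ℝ} (hφ : ContDiff ℝ 1 φ) {a b : ℝ} (hab : a ≤ b) (ha : ∀ s ≤ a, φ s = 1)
    (hb : ∀ s, b ≤ s → φ s = 0) (s : ℝ) :
    φ s = 1 - ∫ t in a..b, indicator {x | x ≤ s} (fun t => -deriv φ t) t := by
  have h1 : ∀ y, ∫ t in a..y, -deriv φ t = 1 - φ y := fun y => by
    rw [intervalIntegral.integral_neg, intervalIntegral.integral_deriv_eq_sub
      (fun x _ => hφ.differentiable one_ne_zero x)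
      ((hφ.continuous_deriv le_rfl).intervalIntegrable _ _), ha a le_rfl]
    ring
  rcases lt_or_ge s a with h | h
  · rw [ha s h.le, intervalIntegral.integral_congr (g := fun _ => 0) fun t ht => ?_]
    · simp
    · rw [uIcc_of_le hab] at ht
      exact indicator_of_notMem (s := {x | x ≤ s}) (not_le.2 (h.trans_le ht.1)) _
  rcases le_or_gt s b with h' | h'
  · rw [intervalIntegral.integral_indicator ⟨h, h'⟩, h1]; ring
  · rw [intervalIntegral.integral_congr (g := fun t => -deriv φ t) fun t ht => ?_]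
    · rw [h1, hb s h'.le, hb b le_rfl]; ring
    · rw [uIcc_of_le hab] at ht
      exact indicator_of_mem (s := {x | x ≤ s}) (ht.2.trans h'.le) _

lemma measurableSet_strip (hw : IsSurf w) (hf : Continuous f) (a b : ℝ) :
    MeasurableSet (strip w f a b) :=
  (isClosed_zero hw).measurableSet.inter ((isOpen_lt continuous_const hf).measurableSet.inter
    (isOpen_lt hf continuous_const).measurableSet)

/-- the weighted count of the critical points above a level -/
lemma count_le (hC : Calc) (h2 : L2Stmt) {c : ℝ} (hc : 0 < c) (hw : IsSurf w)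
    (hK : IsCompact {x | w x = 0}) (hP : IsPreconnected {x | w x = 0}) (hm : IsMorse w f crit)
    {θ : ℝ → ℝ} (hθ : Continuous θ) (hθ0 : ∀ t, 0 ≤ θ t)
    (h3 : ∀ t₁ t₂ : ℝ, t₁ < t₂ → (∀ x ∈ strip w f t₁ t₂, gM w f x ≠ 0) → ∀ V, Piece w f t₁ t₂ V →
      c * ∫ t in t₁..t₂, θ t ≤ ∫ x in V, θ (f x) * GG w f x ∂(ar w)) (n : ℕ) :
    ∀ a b : ℝ, a ≤ b → (crit.filter fun p => f p ∈ Ioo a b).card ≤ n →
      ∑ p ∈ crit, (∫ t in a..b, indicator {x | x ≤ f p} θ t) * ind w f p
        ≤ |∑ p ∈ crit, ind w f p| * (∫ t in a..b, θ t)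
          + c⁻¹ * ∫ x in strip w f a b, θ (f x) * GG w f x ∂(ar w) := by
  have hf := hm.smooth.continuous
  have hi : Integrable (fun x => θ (f x) * GG w f x) (ar w) := integrable_ar hC hw hK
    ((hθ.comp hf).mul (continuous_GG (hw.smooth.of_le two_le) (hm.smooth.of_le two_le))).continuousOn
  have hpos : ∀ x, 0 ≤ θ (f x) * GG w f x := fun x => mul_nonneg (hθ0 _) GG_nonneg
  have base : ∀ a b : ℝ, a ≤ b → (∀ p ∈ crit, f p ∉ Ioo a b) →
      ∑ p ∈ crit, (∫ t in a..b, indicator {x | x ≤ f p} θ t) * ind w f p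
        ≤ |∑ p ∈ crit, ind w f p| * (∫ t in a..b, θ t)
          + c⁻¹ * ∫ x in strip w f a b, θ (f x) * GG w f x ∂(ar w) := by
    intro a b hab h
    have i0 : 0 ≤ ∫ t in a..b, θ t := intervalIntegral.integral_nonneg hab fun t _ => hθ0 t
    have i1 : 0 ≤ ∫ x in strip w f a b, θ (f x) * GG w f x ∂(ar w) := integral_nonneg hpos
    have e : ∑ p ∈ crit, (∫ t in a..b, indicator {x | x ≤ f p} θ t) * ind w f p
        = (∑ p ∈ crit.filter (fun p => a < f p), ind w f p) * ∫ t in a..b, θ t := by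
      rw [Finset.sum_filter, Finset.sum_mul]
      refine Finset.sum_congr rfl fun p hp => ?_
      rw [intervalIntegral.integral_of_le hab, intervalIntegral.integral_of_le hab]
      split_ifs with h1
      · rw [setIntegral_congr_fun (g := θ) measurableSet_Ioc fun t ht => ?_, mul_comm]
        exact indicator_of_mem (s := {x | x ≤ f p})
          (ht.2.trans (not_lt.1 fun h' => h p hp ⟨h1, h'⟩)) _
      · rw [setIntegral_congr_fun (g := fun _ => 0) measurableSet_Ioc fun t ht => ?_]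
        · simp
        · exact indicator_of_notMem (s := {x | x ≤ f p})
            (not_le.2 ((not_lt.1 h1).trans_lt ht.1)) _
    rw [e]
    rcases hab.eq_or_lt with rfl | hab
    · simp only [intervalIntegral.integral_same, mul_zero, zero_add]
      positivity
    by_cases hx : ∃ x, w x = 0 ∧ f x ≤ a
    · obtain ⟨n, V, hV, hVp, hn⟩ := h2 w hw hK hP f crit hm a b hab h hx
      have m1 : ∀ i, MeasurableSet (V i) := fun i => by
        obtain ⟨O, hO, e⟩ := (hVp i).opn
        rw [e]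
        exact hO.measurableSet.inter (measurableSet_strip hw hf a b)
      have m2 : (⋃ i, V i) ⊆ strip w f a b := iUnion_subset fun i => by
        obtain ⟨O, hO, e⟩ := (hVp i).opn
        rw [e]
        exact inter_subset_right
      have k1 := Finset.sum_le_sum fun i (_ : i ∈ Finset.univ) => h3 a b hab
        (fun x hx h0 => h x ((hm.mem x).2 ⟨hx.1, h0⟩) hx.2) (V i) (hVp i)
      rw [← integral_iUnion_fintype m1 hV fun i => hi.integrableOn, Finset.sum_const,
        Finset.card_univ, Fintype.card_fin, nsmul_eq_mul] at k1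
      have k2 := setIntegral_mono_set (hi.integrableOn (s := strip w f a b))
        (Eventually.of_forall hpos) m2.eventuallyLE
      have k3 : n * ∫ t in a..b, θ t
          ≤ c⁻¹ * ∫ x in strip w f a b, θ (f x) * GG w f x ∂(ar w) := by
        rw [le_inv_mul_iff₀ hc]
        linarith
      have k4 := mul_le_mul_of_nonneg_right hn i0
      have k5 := mul_nonneg (abs_nonneg (∑ p ∈ crit, ind w f p)) i0
      linarith
    · rw [Finset.filter_true_of_mem fun p hp => not_le.1 fun h' => hx ⟨p, ((hm.mem p).1 hp).1, h'⟩]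
      have k4 := mul_le_mul_of_nonneg_right (le_abs_self (∑ p ∈ crit, ind w f p)) i0
      have k5 := mul_nonneg (inv_pos.2 hc).le i1
      linarith
  induction n with
  | zero =>
    intro a b hab h
    rw [Nat.le_zero, Finset.card_eq_zero, Finset.filter_eq_empty_iff] at h
    exact base a b hab h
  | succ n ih =>
    intro a b hab h
    by_cases h0 : ∀ p ∈ crit, f p ∉ Ioo a b
    · exact base a b hab h0
    push Not at h0
    obtain ⟨q, hq, hqab⟩ := h0
    have sub : ∀ a' b', a ≤ a' → b' ≤ b → f q ∉ Ioo a' b' →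
        (crit.filter fun p => f p ∈ Ioo a' b').card ≤ n := fun a' b' h1 h2 h3 => by
      refine Nat.lt_succ_iff.1 (lt_of_lt_of_le (Finset.card_lt_card ⟨fun p hp => ?_, fun h4 => ?_⟩) h)
      · rw [Finset.mem_filter] at hp ⊢
        exact ⟨hp.1, Ioo_subset_Ioo h1 h2 hp.2⟩
      · exact h3 (Finset.mem_filter.1 (h4 (Finset.mem_filter.2 ⟨hq, hqab⟩))).2
    have k1 := ih a (f q) hqab.1.le (sub _ _ le_rfl hqab.2.le fun h => lt_irrefl _ h.2)
    have k2 := ih (f q) b hqab.2.le (sub _ _ hqab.1.le le_rfl fun h => lt_irrefl _ h.1)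
    have k3 : ∫ x in strip w f a (f q), θ (f x) * GG w f x ∂(ar w)
        + ∫ x in strip w f (f q) b, θ (f x) * GG w f x ∂(ar w)
        ≤ ∫ x in strip w f a b, θ (f x) * GG w f x ∂(ar w) := by
      rw [← setIntegral_union (disjoint_left.2 fun x h1 h2 => lt_asymm h1.2.2 h2.2.1)
        (measurableSet_strip hw hf _ _) hi.integrableOn hi.integrableOn]
      refine setIntegral_mono_set hi.integrableOn (Eventually.of_forall hpos)
        (HasSubset.Subset.eventuallyLE ?_)
      rintro x (h | h)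
      · exact ⟨h.1, h.2.1, h.2.2.trans hqab.2⟩
      · exact ⟨h.1, hqab.1.trans h.2.1, h.2.2⟩
    have k4 := mul_le_mul_of_nonneg_left k3 (inv_pos.2 hc).le
    simp only [← intervalIntegral.integral_add_adjacent_intervals (ii_ind hθ _ a (f q))
      (ii_ind hθ _ (f q) b), add_mul, Finset.sum_add_distrib]
    rw [← intervalIntegral.integral_add_adjacent_intervals (hθ.intervalIntegrable a (f q))
      (hθ.intervalIntegrable (f q) b)]
    linarith

lemma exists_st_bound : ∃ L, 0 ≤ L ∧ ∀ s, deriv Real.smoothTransition s ≤ L := by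
  have h1 : Continuous (deriv Real.smoothTransition) :=
    (Real.smoothTransition.contDiff (n := 1)).continuous_deriv le_rfl
  obtain ⟨L, hL⟩ := (isCompact_Icc (a := (0 : ℝ)) (b := 1)).exists_bound_of_continuousOn
    h1.continuousOn
  have h0 : 0 ≤ L := (norm_nonneg _).trans (hL 0 (by simp))
  refine ⟨L, h0, fun s => ?_⟩
  rcases lt_or_ge s 0 with h | h
  · have : Real.smoothTransition =ᶠ[𝓝 s] fun _ => 0 := (gt_mem_nhds h).mono fun y hy =>
      Real.smoothTransition.zero_of_nonpos hy.le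
    rwa [this.deriv_eq, deriv_const]
  rcases le_or_gt s 1 with h' | h'
  · exact (le_abs_self _).trans (hL s ⟨h, h'⟩)
  · have : Real.smoothTransition =ᶠ[𝓝 s] fun _ => 1 := (lt_mem_nhds h').mono fun y hy =>
      Real.smoothTransition.one_of_one_le hy.le
    rwa [this.deriv_eq, deriv_const]

lemma ind_int (p : E3) : ∃ n : ℤ, ind w f p = n := by
  rcases Real.sign_apply_eq (detM w f p) with h | h | h
  exacts [⟨-1, by simp [ind, h]⟩, ⟨0, by simp [ind, h]⟩, ⟨1, by simp [ind, h]⟩]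

/-- the Gauss-Bonnet-Poincaré-Hopf formula -/
lemma total_KK (h1 : L1Stmt) (hw : IsSurf w) (hK : IsCompact {x | w x = 0})
    (hm : IsMorse w f crit) : ∫ x, KK w x ∂(ar w) = 2 * Real.pi * ∑ p ∈ crit, ind w f p := by
  obtain ⟨C, -, h⟩ := h1
  simpa [sub_eq_zero] using h w hw hK f crit hm (fun _ => 1) contDiff_const

lemma total_KK_int (h0 : L0Stmt) (h1 : L1Stmt) (hw : IsSurf w) (hK : IsCompact {x | w x = 0}) :
    ∃ n : ℤ, ∫ x, KK w x ∂(ar w) = 2 * Real.pi * n := by
  obtain ⟨f, crit, hm, -⟩ := h0 w hw hK 0 1 one_pos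
  choose n hn using ind_int (w := w) (f := f)
  exact ⟨∑ p ∈ crit, n p, by rw [total_KK h1 hw hK hm]; simp [hn]⟩

lemma exists_cut : ∃ L, 0 ≤ L ∧ ∀ r : ℝ, 0 < r → ∃ φ ζ : ℝ → ℝ, ContDiff ℝ 1 φ ∧
    (∀ s, φ s = ζ s ^ 2) ∧ (∀ s, 0 ≤ ζ s) ∧ (∀ s, ζ s ≤ 1) ∧ (∀ s, 0 ≤ -deriv φ s) ∧
    (∀ s, -deriv φ s ≤ 2 * ζ s * (L / r ^ 2)) ∧ (∀ s ≤ 3 / 4 * r ^ 2, ζ s = 1) ∧
    ∀ s, 7 / 4 * r ^ 2 ≤ s → ζ s = 0 := by
  obtain ⟨L, hL, hLb⟩ := exists_st_bound
  refine ⟨L, hL, fun r hr => ?_⟩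
  set ζ : ℝ → ℝ := fun s => Real.smoothTransition (7 / 4 - s / r ^ 2) with hζ
  set φ : ℝ → ℝ := fun s => ζ s ^ 2 with hφ
  have φ1 : ContDiff ℝ 1 φ := ((Real.smoothTransition.contDiff (n := 1)).comp
    (contDiff_const.sub (contDiff_id.div_const _))).pow 2
  have dφ : ∀ s, -deriv φ s
      = 2 * ζ s * (deriv Real.smoothTransition (7 / 4 - s / r ^ 2) / r ^ 2) := fun s => by
    have a1 := ((Real.smoothTransition.contDiff (n := 1)).differentiable one_ne_zero
      (7 / 4 - s / r ^ 2)).hasDerivAt.comp s (((hasDerivAt_id s).div_const (r ^ 2)).const_sub (7 / 4))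
    have a2 : HasDerivAt φ _ s := a1.pow 2
    rw [a2.deriv]
    simp only [hζ, Function.comp, id]
    ring
  have ζ0 : ∀ s, 0 ≤ ζ s := fun s => Real.smoothTransition.nonneg _
  have ζ1 : ∀ s, ζ s ≤ 1 := fun s => Real.smoothTransition.le_one _
  have θ0 : ∀ s, 0 ≤ -deriv φ s := fun s => by
    have := ζ0 s
    have := Real.smoothTransition.monotone.deriv_nonneg (x := 7 / 4 - s / r ^ 2)
    rw [dφ]; positivity
  have θ1 : ∀ s, -deriv φ s ≤ 2 * ζ s * (L / r ^ 2) := fun s => by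
    have := ζ0 s
    rw [dφ]; gcongr; exact hLb _
  have za : ∀ s ≤ 3 / 4 * r ^ 2, ζ s = 1 := fun s h => Real.smoothTransition.one_of_one_le (by
    have : s / r ^ 2 ≤ 3 / 4 := (div_le_iff₀ (by positivity)).2 h
    linarith)
  have zb : ∀ s, 7 / 4 * r ^ 2 ≤ s → ζ s = 0 := fun s h => Real.smoothTransition.zero_of_nonpos (by
    have : 7 / 4 ≤ s / r ^ 2 := (le_div_iff₀ (by positivity)).2 h
    linarith)
  exact ⟨φ, ζ, φ1, fun _ => rfl, ζ0, ζ1, θ0, θ1, za, zb⟩

lemma absorb {C L r z a θ G H : ℝ} (hC : 0 ≤ C) (hL : 0 ≤ L) (hr : 0 < r) (hz0 : 0 ≤ z)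
    (hz1 : z ≤ 1) (hG0 : 0 ≤ G) (hθ : θ ≤ 2 * z * (L / r ^ 2)) (hG : G ≤ 2 + 3 * r * a)
    (hH : a ^ 2 ≤ H) :
    C * (θ * G) ≤ z ^ 2 * H / 2 + (4 * C * L + 18 * C ^ 2 * L ^ 2) / r ^ 2 :=
  calc C * (θ * G) ≤ C * (2 * z * (L / r ^ 2) * (2 + 3 * r * a)) := by gcongr
    _ = 4 * C * L / r ^ 2 * z + (z * a) * (6 * C * L / r) := by field_simp; ring
    _ ≤ 4 * C * L / r ^ 2 * 1 + ((z * a) ^ 2 / 2 + (6 * C * L / r) ^ 2 / 2) := by
        gcongr
        nlinarith [sq_nonneg (z * a - 6 * C * L / r)]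
    _ = z ^ 2 * a ^ 2 / 2 + (4 * C * L + 18 * C ^ 2 * L ^ 2) / r ^ 2 := by field_simp; ring
    _ ≤ _ := by gcongr

lemma final_ineq {x a b d : ℝ} (ha : 0 ≤ a) (hb : 0 ≤ b) (hd : 0 ≤ d)
    (h : x ≤ 2 * b + 8 * a + d) : x ≤ (8 + d) * (1 + a) * (1 + b) := by
  nlinarith [mul_nonneg ha hb, mul_nonneg hd ha, mul_nonneg hd hb, mul_nonneg hd (mul_nonneg ha hb)]

theorem lgbStatic_of (hC : Calc) (h0 : L0Stmt) (h1 : L1Stmt) (h2 : L2Stmt) (h3 : L3Stmt) :
    LGBStaticStmt := by
  intro A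
  obtain ⟨C₁, hC₁, k1⟩ := id h1
  obtain ⟨c, hc, k3⟩ := h3
  obtain ⟨L, hL, hLb⟩ := exists_cut
  obtain ⟨C₂, hC₂⟩ : ∃ C, C = 2 * (2 * Real.pi * c⁻¹ + C₁) := ⟨_, rfl⟩
  have hC₂0 : 0 ≤ C₂ := by rw [hC₂]; positivity
  obtain ⟨C₃, hC₃⟩ : ∃ C, C = 4 * C₂ * L + 18 * C₂ ^ 2 * L ^ 2 := ⟨_, rfl⟩
  have hC₃0 : 0 ≤ C₃ := by rw [hC₃]; positivity
  refine ⟨8 + 8 * |A| * C₃, fun w hw hK hP hA => ⟨total_KK_int h0 h1 hw hK, fun z r hr => ?_⟩⟩
  obtain ⟨f, crit, hm, hcl⟩ := h0 w hw hK z (min (r ^ 2 / 4) r) (by positivity)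
  have hw2 : ContDiff ℝ 2 w := hw.smooth.of_le two_le
  have hf2 : ContDiff ℝ 2 f := hm.smooth.of_le two_le
  have := finite_ar hC hw hK
  obtain ⟨φ, ζ, φ1, hφ, ζ0, ζ1, θ0, θ1, za, zb⟩ := hLb r hr
  have hab : 3 / 4 * r ^ 2 ≤ 7 / 4 * r ^ 2 := by nlinarith
  have θc : Continuous fun s => -deriv φ s := (φ1.continuous_deriv le_rfl).neg
  have φa : ∀ s ≤ 3 / 4 * r ^ 2, φ s = 1 := fun s h => by simp only [hφ, za s h, one_pow]
  have φb : ∀ s, 7 / 4 * r ^ 2 ≤ s → φ s = 0 := fun s h => by simp [hφ, zb s h]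
  have cθ : Continuous fun x => -deriv φ (f x) * GG w f x :=
    (θc.comp hf2.continuous).mul (continuous_GG hw2 hf2)
  have cφ : Continuous fun x => φ (f x) := φ1.continuous.comp hf2.continuous
  have iθ := integrable_ar hC hw hK cθ.continuousOn
  have iA := integrable_ar hC hw hK (g := fun x => φ (f x) * hessSq w x)
    (cφ.mul (continuous_hessSq hw2)).continuousOn
  have iH := integrable_ar hC hw hK (g := fun x => φ (f x) * lap w x ^ 2)
    (cφ.mul ((continuous_lap hw2).pow 2)).continuousOn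
  have iL := integrable_ar hC hw hK (g := fun x => lap w x ^ 2)
    ((continuous_lap hw2).pow 2).continuousOn
  -- the count
  have s1 := count_le hC h2 hc hw hK hP hm θc θ0 (fun t₁ t₂ h h' V hV =>
    k3 w hw hK f hm.smooth t₁ t₂ h h' V hV _ θc θ0) _ _ _ hab le_rfl
  have s2 : ∫ t in (3 / 4 * r ^ 2)..(7 / 4 * r ^ 2), -deriv φ t = 1 := by
    rw [intervalIntegral.integral_neg, intervalIntegral.integral_deriv_eq_sub
      (fun x _ => φ1.differentiable one_ne_zero x)
      ((φ1.continuous_deriv le_rfl).intervalIntegrable _ _), φa _ le_rfl, φb _ le_rfl]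
    ring
  have s3 := setIntegral_le_integral (s := strip w f (3 / 4 * r ^ 2) (7 / 4 * r ^ 2)) iθ
    (Eventually.of_forall fun x => mul_nonneg (θ0 _) GG_nonneg)
  have s4 : ∑ p ∈ crit, φ (f p) * ind w f p = ∑ p ∈ crit, ind w f p - ∑ p ∈ crit,
      (∫ t in (3 / 4 * r ^ 2)..(7 / 4 * r ^ 2), indicator {x | x ≤ f p} (fun t => -deriv φ t) t)
        * ind w f p := by
    rw [← Finset.sum_sub_distrib]
    exact Finset.sum_congr rfl fun p _ => by rw [layer φ1 hab φa φb (f p)]; ring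
  have s5 := k1 w hw hK f crit hm φ φ1
  have s6 : ∀ s, |deriv φ s| = -deriv φ s := fun s => abs_of_nonpos (by linarith [θ0 s])
  simp only [s6] at s5
  have s7 := total_KK h1 hw hK hm
  have s8 : ∫ x, φ (f x) * KK w x ∂(ar w)
      = (∫ x, φ (f x) * lap w x ^ 2 ∂(ar w) - ∫ x, φ (f x) * hessSq w x ∂(ar w)) / 2 := by
    rw [← integral_sub iH iA, ← integral_div]
    exact integral_congr_ae (Eventually.of_forall fun x => by simp only [KK]; ring)
  -- pointwise bounds
  have far : ∀ x, w x = 0 → x ∉ ball z (2 * r) → ζ (f x) = 0 := fun x hx h => zb _ (by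
    have a1 := (abs_le.1 ((hcl x hx).1.trans (min_le_left _ _))).1
    rw [mem_ball, dist_eq_norm, not_lt] at h
    nlinarith)
  have s9 : ∫ x, φ (f x) * lap w x ^ 2 ∂(ar w) ≤ ∫ x in ball z (2 * r), lap w x ^ 2 ∂(ar w) := by
    rw [← integral_indicator measurableSet_ball]
    refine integral_mono_ae iH (iL.indicator measurableSet_ball) ((ae_zero hw).mono fun x hx => ?_)
    by_cases h : x ∈ ball z (2 * r)
    · simp only [indicator_of_mem h, hφ]
      exact mul_le_of_le_one_left (sq_nonneg _) (pow_le_one₀ (ζ0 _) (ζ1 _))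
    · simp [indicator_of_notMem h, hφ, far x hx h]
  have s10 : ∫ x in ball z r, hessSq w x ∂(ar w) ≤ ∫ x, φ (f x) * hessSq w x ∂(ar w) := by
    rw [← integral_indicator measurableSet_ball]
    refine integral_mono_ae ((integrable_ar hC hw hK (continuous_hessSq hw2).continuousOn).indicator
      measurableSet_ball) iA ((ae_zero hw).mono fun x hx => ?_)
    by_cases h : x ∈ ball z r
    · have a1 := (abs_le.1 ((hcl x hx).1.trans (min_le_left _ _))).2
      have a2 : ‖x - z‖ < r := by rwa [mem_ball, dist_eq_norm] at h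
      simp only [indicator_of_mem h, φa (f x) (by nlinarith [norm_nonneg (x - z)]), one_mul, le_refl]
    · simp only [indicator_of_notMem h]
      exact mul_nonneg (hφ _ ▸ sq_nonneg _) (hessSq_nonneg (surf2 hw x))
  have s11 : C₂ * ∫ x, -deriv φ (f x) * GG w f x ∂(ar w)
      ≤ (∫ x, φ (f x) * hessSq w x ∂(ar w)) / 2 + 4 * |A| * C₃ := by
    have a0 : (ar w).real (ball z (2 * r)) ≤ |A| * (2 * r) ^ 2 :=
      ENNReal.toReal_le_of_le_ofReal (by positivity) ((measure_mono ball_subset_closedBall).trans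
        ((hA z _ (by positivity)).trans (ENNReal.ofReal_le_ofReal (by gcongr; exact le_abs_self A))))
    have a1 : ∫ x, indicator (ball z (2 * r)) (fun _ => C₃ / r ^ 2) x ∂(ar w) ≤ 4 * |A| * C₃ := by
      rw [integral_indicator_const _ measurableSet_ball, smul_eq_mul]
      refine (mul_le_mul_of_nonneg_right a0 (by positivity)).trans (le_of_eq ?_)
      field_simp
      ring
    have a2 := (integrable_const (μ := ar w) (C₃ / r ^ 2)).indicator
      (measurableSet_ball (x := z) (ε := 2 * r))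
    refine le_trans ?_ (add_le_add le_rfl a1)
    rw [← integral_const_mul, ← integral_div, ← integral_add (iA.div_const 2) a2]
    refine integral_mono_ae (iθ.const_mul _) ((iA.div_const 2).add a2)
      ((ae_zero hw).mono fun x hx => ?_)
    have b1 := θ1 (f x)
    have b2 := normSq_hs_le (surf2 hw x)
    by_cases h : x ∈ ball z (2 * r)
    · have b3 : ‖gradient f x‖ ≤ 3 * r := by
        have := (hcl x hx).2.1
        rw [mem_ball, dist_eq_norm] at h
        linarith [min_le_right (r ^ 2 / 4) r]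
      have b4 : GG w f x ≤ 2 + 3 * r * ‖hs w x‖ :=
        add_le_add (hcl x hx).2.2 (mul_le_mul_of_nonneg_right b3 (norm_nonneg _))
      simp only [indicator_of_mem h, hφ]
      rw [hC₃]
      exact absorb hC₂0 hL hr (ζ0 _) (ζ1 _) GG_nonneg b1 b4 b2
    · rw [far x hx h, mul_zero, zero_mul] at b1
      simp [indicator_of_notMem h, le_antisymm b1 (θ0 _), far x hx h, hφ]
  have t1 : |∫ x, KK w x ∂(ar w)| = 2 * Real.pi * |∑ p ∈ crit, ind w f p| := by
    rw [s7, abs_mul, abs_of_pos Real.two_pi_pos]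
  have t2 := mul_le_mul_of_nonneg_left s3 (inv_pos.2 hc).le
  have t3 : -2 * |∑ p ∈ crit, ind w f p| - c⁻¹ * ∫ x, -deriv φ (f x) * GG w f x ∂(ar w)
      ≤ ∑ p ∈ crit, φ (f p) * ind w f p := by
    rw [s2] at s1
    linarith [neg_abs_le (∑ p ∈ crit, ind w f p)]
  have t4 := mul_le_mul_of_nonneg_left t3 Real.two_pi_pos.le
  have t5 := (abs_le.1 s5).1
  have t6 : 0 ≤ ∫ x in ball z (2 * r), lap w x ^ 2 ∂(ar w) := integral_nonneg fun x => sq_nonneg _
  have t7 : ∫ x, φ (f x) * hessSq w x ∂(ar w) ≤ 2 * ∫ x in ball z (2 * r), lap w x ^ 2 ∂(ar w)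
      + 8 * |∫ x, KK w x ∂(ar w)| + 8 * |A| * C₃ := by
    rw [hC₂] at s11
    rw [t1]
    linarith
  exact final_ineq (abs_nonneg _) t6 (by positivity) (s10.trans t7)

theorem lgbFlow_of (hC : Calc) (h : LGBStaticStmt) : LGBFlowStmt := by
  intro w I A hw hK hP
  obtain ⟨C, hA⟩ := h A
  have hs := hC.slice w I hw.toIsFlow
  have hc : ∀ t ∈ I, IsCompact {x | w t x = 0} := fun t ht => by
    refine ((hK t ht t ht).image continuous_snd).of_isClosed_subset (isClosed_zero (hs t ht)) ?_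
    exact fun x hx => ⟨(t, x), ⟨⟨le_rfl, le_rfl⟩, hx⟩, rfl⟩
  have h1 : ContinuousOn (fun t => ∫ x, KK (w t) x ∂(ar (w t))) I := by
    intro t ht
    obtain ⟨a, b, hab, hI⟩ := exists_Icc_mem_subset_of_mem_nhds (hw.isOpen.mem_nhds ht) |>.imp
      fun a h => h.imp fun b h => h.2
    have hle : a ≤ b := nonempty_Icc.1 ⟨t, mem_of_mem_nhds hab⟩
    have hab' := (hK a (hI (left_mem_Icc.2 hle)) b (hI (right_mem_Icc.2 hle))).image continuous_snd
    obtain ⟨R, hR, hsub⟩ := hab'.isBounded.subset_ball_lt 0 (0 : E3)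
    let β : ContDiffBump (0 : E3) := ⟨R, R + 1, hR, by linarith⟩
    have k1 := hC.param w I hw.toIsFlow 0 ℝ id (fun s x => β x * KK (w s) x)
      (interior (Icc a b)) isOpen_interior contDiffOn_id (fun s hs => hI (interior_subset hs))
      (contDiffOn_zero.2 fun p hp => ?_) _ β.hasCompactSupport fun s _ x hx => by
        simp [image_eq_zero_of_notMem_tsupport hx]
    · have k2 := k1.continuousOn.continuousAt (interior_mem_nhds.2 hab)
      refine (k2.congr ?_).continuousWithinAt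
      filter_upwards [hab] with s hs'
      refine integral_congr_ae ((ae_zero (hs s (hI hs'))).mono fun x hx => ?_)
      simp [β.one_of_mem_closedBall (ball_subset_closedBall (hsub ⟨(s, x), ⟨hs', hx⟩, rfl⟩))]
    · have hp1 := hI (interior_subset hp.1)
      have a1 := (P218UG.flow_hs hw.toIsFlow hp1 p.2).continuousAt
      have a2 := (P218UG.flow_lap hw.toIsFlow hp1 p.2).continuousAt
      have a3 : ContinuousAt (fun q : ℝ × E3 => hessSq (w q.1) q.2) p :=
        continuous_trace.continuousAt.comp (a1.clm_comp a1)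
      have a4 : ContinuousAt (fun q : ℝ × E3 => β q.2 * KK (w q.1) q.2) p :=
        (β.continuous.comp continuous_snd).continuousAt.mul (((a2.pow 2).sub a3).div_const 2)
      exact a4.continuousWithinAt
  rcases I.eq_empty_or_nonempty with rfl | ⟨t₀, ht₀⟩
  · exact ⟨1, hw, le_rfl, fun t ht => ht.elim⟩
  have h2 := fun t ht => hA (w t) (hs t ht) (hc t ht) (hP t ht) (hw.ratio t ht)
  have h3 : ∀ t ∈ I, ∫ x, KK (w t) x ∂(ar (w t)) = ∫ x, KK (w t₀) x ∂(ar (w t₀)) := fun t ht =>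
    hw.conn.isPreconnected.constant_of_mapsTo (T := AddSubgroup.zmultiples (2 * Real.pi))
      (NormedSpace.discreteTopology_zmultiples _ |> isDiscrete_iff_discreteTopology.2) h1
      (fun s hs => by
        obtain ⟨n, hn⟩ := (h2 s hs).1
        exact ⟨n, ((zsmul_eq_mul _ _).trans (mul_comm _ _)).trans hn.symm⟩) ht ht₀
  refine ⟨max 1 (C * (1 + |∫ x, KK (w t₀) x ∂(ar (w t₀))|)), hw, le_max_left _ _,
    fun t ht z r hr => ((h2 t ht).2 z r hr).trans ?_⟩
  refine mul_le_mul_of_nonneg_right ?_ (add_nonneg zero_le_one (integral_nonneg fun x => sq_nonneg _))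
  rw [← h3 t ht]
  exact le_max_right _ _

end Vale.Agent.P218UE
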